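import Vale.Agent.P354XV.Defs
import Vale.Agent.P354YO.Patch

/-!
Locality of the state, and the gauge condition under isometries.
-/

open scoped ContDiff
open Set Filter Topology

noncomputable section

namespace Vale.Agent.P354XV

open Vale.Agent.P354n (R4 mink)
open Vale.Agent.P354R (Met Vac Pull chr)
open Vale.Agent.P354RC (Rp rp_of_met k2 bs at_df at_fd fd_ap0 surj_of_inj)
open Vale.Agent.P354XE (Tw pt xs eT Bd pb)

variable {g g' gc : Tw} {D D' : Set R4} {p x : R4} {N : Nat} {S : Sc} {V V' : ℝ}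
  {Y Y' f : R4 → R4}

theorem met_mono (m : Met g D) (s : D' ⊆ D) : Met g D' :=
  ⟨fun y hy => m.lin y (s hy), fun y hy => m.symm y (s hy), fun y hy => m.nondeg y (s hy),
    fun a b => (m.smooth a b).mono s⟩

theorem Lv.mono (l : Lv g D) (h : IsOpen D') (s : D' ⊆ D) : Lv g D' :=
  ⟨h, met_mono l.met s, l.vac.imp fun _ k y hy => k y (s hy), fun y hy => l.sig y (s hy)⟩

/-- To be a vacuum metric is a local property. -/
theorem lv_local (hD : IsOpen D) (h : ∀ p ∈ D, ∃ g' D', Lv g' D' ∧ p ∈ D' ∧ g =ᶠ[𝓝 p] g') :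
    Lv g D := by
  have m : Met g D := by
    refine ⟨fun y hy => ?_, fun y hy => ?_, fun y hy => ?_, fun a b y hy => ?_⟩ <;>
      obtain ⟨g', D', l, hy', e⟩ := h y hy
    · rw [e.eq_of_nhds]; exact l.met.lin y hy'
    · rw [e.eq_of_nhds]; exact l.met.symm y hy'
    · rw [e.eq_of_nhds]; exact l.met.nondeg y hy'
    · exact (((l.met.smooth a b).contDiffAt (l.isOpen.mem_nhds hy')).congr_of_eventuallyEq
        (e.mono fun z hz => by rw [hz])).contDiffWithinAt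
  refine ⟨hD, m, ?_, fun y hy => ?_⟩
  · obtain ⟨k, r⟩ := rp_of_met hD m
    refine r.vac.2 fun y hy => ?_
    obtain ⟨g', D', l, hy', e⟩ := h y hy
    obtain ⟨O, hO, oO, yO⟩ := mem_nhds_iff.1 (inter_mem (inter_mem (hD.mem_nhds hy)
      (l.isOpen.mem_nhds hy')) e)
    have r1 := r.mono oO fun z hz => (hO hz).1.1
    have r2 : Rp g' k O := ⟨oO, fun z hz a b => by
      rw [← r1.eq z hz, show g z = g' z from (hO hz).2], r1.sm, r1.symm, r1.nd⟩
    exact r2.vac.1 (l.mono oO fun z hz => (hO hz).1.2).vac y yO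
  · obtain ⟨g', D', l, hy', e⟩ := h y hy
    unfold Sig
    rw [e.eq_of_nhds]; exact l.sig y hy'

theorem Lv.congr (l : Lv g D) (e : EqOn g' g D) : Lv g' D :=
  lv_local l.isOpen fun _ hp => ⟨g, D, l, hp, mem_of_superset (l.isOpen.mem_nhds hp) e⟩

theorem sig_pull (s : Sig g (f x)) (i : Function.Injective (fderiv ℝ f x))
    (e : ∀ a b, g' x a b = g (f x) (fderiv ℝ f x a) (fderiv ℝ f x b)) : Sig g' x := by
  obtain ⟨L, k1, k2, k3⟩ := s
  exact ⟨fun v => L (fderiv ℝ f x v), ⟨fun a b => by rw [map_add, k1.map_add],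
    fun a b => by rw [map_smul, k1.map_smul]⟩, k2.comp i, fun v w => by rw [e, k3]⟩

theorem Lv.pull (l : Lv g D) (P : Pull f g' D' g D) : Lv g' D' :=
  ⟨P.open', k2.1 _ _ _ _ _ P, k2.2.1 _ _ _ _ _ P l.vac, fun y hy =>
    sig_pull (l.sig _ (P.maps hy)) (P.inj y hy) (P.eq y hy)⟩

theorem jet_congr (m : ℕ) (e : g' =ᶠ[𝓝 x] g) : jet m g' x = jet m g x := by
  funext k α i j
  have : (fun z => g' z (bs i) (bs j)) =ᶠ[𝓝 x] fun z => g z (bs i) (bs j) :=
    e.mono fun z hz => by simp only [hz]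
  simp only [jet, (this.iteratedFDeriv ℝ k).eq_of_nhds]

theorem chr_congr (e : g' =ᶠ[𝓝 x] g) (a b c : R4) : chr g' x a b c = chr g x a b c := by
  have k : ∀ a b c, P354n.deriv (fun z => g' z b c) x a = P354n.deriv (fun z => g z b c) x a :=
    fun a b c => EventuallyEq.lineDeriv_eq (e.mono fun z hz => by simp only [hz])
  simp only [chr, k]

theorem Gq.congr (h : Gq N p g Y x) (e : g' =ᶠ[𝓝 x] g) (e' : Y' =ᶠ[𝓝 x] Y) : Gq N p g' Y' x := by
  unfold Gq
  rw [jet_congr _ e, e'.eq_of_nhds, e'.fderiv_eq, e.eq_of_nhds]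
  simp only [chr_congr e]
  exact h

theorem jet_cd (m : ℕ) (hD : IsOpen D) (h : Met g D) : ContDiffOn ℝ ∞ (jet m g) D := by
  refine contDiffOn_pi.2 fun k => contDiffOn_pi.2 fun α => contDiffOn_pi.2 fun i =>
    contDiffOn_pi.2 fun j y hy => ?_
  have a : ContDiffAt ℝ ∞ (iteratedFDeriv ℝ k fun z => g z (bs i) (bs j)) y :=
    ((h.smooth _ _).contDiffAt (hD.mem_nhds hy)).iteratedFDeriv_right (by exact_mod_cast le_top)
  exact ((ContinuousMultilinearMap.apply ℝ (fun _ : Fin k => R4) ℝ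
    fun l => bs (α l)).contDiff.contDiffAt.comp y a).contDiffWithinAt

/-! ### The state -/

theorem Sc.Is.cl (h : S.Is) (c : ℝ) : IsOpen (S.Cl c) :=
  h.smp.continuousOn.isOpen_inter_preimage h.opn isOpen_Iio

theorem Sc.Is.om (h : S.Is) (V : ℝ) : IsOpen (S.Om V) := by
  have : S.Om V = S.O ∩ S.tau ⁻¹' Iio V ∪ S.Cl 0 := by
    ext p; simp only [Sc.Om, Sc.Cl, mem_ofPred_eq, mem_union, mem_inter_iff, mem_preimage, mem_Iio]
    exact and_or_left
  rw [this]
  exact (h.smt.continuousOn.isOpen_inter_preimage h.opn isOpen_Iio).union (h.cl 0)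

theorem Sc.om_mono (S : Sc) : Monotone S.Om := fun _ _ h _ hp =>
  ⟨hp.1, hp.2.imp_left fun k => k.trans_le h⟩

theorem Sc.cl_om (S : Sc) (V : ℝ) : S.Cl 0 ⊆ S.Om V := fun _ hp => ⟨hp.1, Or.inr hp.2⟩

theorem St.restr (hS : S.Is) (h : St N S gc V g) (e : V' ≤ V) : St N S gc V' g :=
  ⟨h.lv.mono (hS.om _) (S.om_mono e), fun p hp => h.gau p (S.om_mono e hp), h.col⟩

theorem St.congr (h : St N S gc V g) (e : EqOn g' g (S.Om V)) : St N S gc V g' :=
  ⟨h.lv.congr e, fun p hp => (h.gau p hp).congr (mem_of_superset (h.lv.isOpen.mem_nhds hp) e)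
    .rfl, fun _ hp => (e (S.cl_om V hp)).trans (h.col hp)⟩

theorem St.lim (hS : S.Is) (h : ∀ V' < V, St N S gc V' g) : St N S gc V g := by
  have k : ∀ p ∈ S.Om V, ∃ V' < V, p ∈ S.Om V' := fun p hp => by
    rcases hp.2 with a | a
    · obtain ⟨V', b, c⟩ := exists_between a
      exact ⟨V', c, hp.1, Or.inl b⟩
    · exact ⟨V - 1, by linarith, hp.1, Or.inr a⟩
  refine ⟨lv_local (hS.om V) fun p hp => ?_, fun p hp => ?_, (h (V - 1) (by linarith)).col⟩ <;>
    obtain ⟨V', a, b⟩ := k p hp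
  exacts [⟨g, _, (h V' a).lv, b, .rfl⟩, (h V' a).gau p b]

/-- The start: for very negative V the region is the collar. -/
theorem St.init (hS : S.Is) (c : Col N S gc) : ∃ V, S.Om V = S.Cl 0 ∧ St N S gc V gc := by
  obtain ⟨B, hB⟩ := ((hS.cpt 0).image_of_continuousOn
    (hS.smt.continuousOn.mono fun _ h => h.1)).bddBelow
  have e : S.Om (min B 0) = S.Cl 0 := by
    refine Subset.antisymm (fun p hp => ⟨hp.1, ?_⟩) (S.cl_om _)
    by_contra hn
    rcases hp.2 with a | a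
    · have := hB ⟨p, ⟨hp.1, (a.trans_le (min_le_right _ _)).le, by linarith [not_lt.1 hn]⟩, rfl⟩
      exact absurd (a.trans_le (min_le_left _ _)) (not_lt.2 this)
    · exact hn a
  refine ⟨_, e, ?_, ?_, fun _ _ => rfl⟩ <;> rw [e]
  exacts [c.lv.mono (hS.cl 0) fun p hp => ⟨hp.1, hp.2.trans one_pos⟩, c.gau]

/-! ### The gauge condition under isometries -/

/-- The equation for the velocity w of f along Y. -/
def Eq2 (N : Nat) (p : R4) (g : Tw) (Y f w : R4 → R4) (x : R4) : Prop :=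
  (p, jet N.m g (f x), w x) ∈ N.U ∧ ∀ c, g (f x) (fderiv ℝ w x (Y x)) c +
    chr g (f x) (w x) (w x) c = g (f x) (N.F (p, jet N.m g (f x), w x)) c

theorem gq_iff (hN : N.Is) (P : Pull f g' D' g D) (l : Lv g D) (hx : x ∈ D')
    (hd : 0 < LinearMap.det (fderiv ℝ f x : R4 →ₗ[ℝ] R4)) (hY : DifferentiableAt ℝ Y x) :
    Gq N p g' Y x ↔ Eq2 N p g Y f (fun z => fderiv ℝ f z (Y z)) x := by
  obtain ⟨n1, -, n3⟩ := hN.nat f g' D' g D P l x hx hd p (Y x)
  have hf := P.smooth.contDiffAt (P.open'.mem_nhds hx)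
  have d : fderiv ℝ (fun z => fderiv ℝ f z (Y z)) x (Y x) =
      fderiv ℝ (fun z => fderiv ℝ f z (Y x)) x (Y x) + fderiv ℝ f x (fderiv ℝ Y x (Y x)) := by
    rw [fderiv_clm_apply (at_df (at_fd hf)) hY, fd_ap0 (at_fd hf), add_comm]; rfl
  have e : (p, jet N.m g' x, Y x) ∈ N.U → ∀ c, (g' x (fderiv ℝ Y x (Y x)) c +
      chr g' x (Y x) (Y x) c = g' x (N.F (p, jet N.m g' x, Y x)) c ↔
      g (f x) (fderiv ℝ (fun z => fderiv ℝ f z (Y z)) x (Y x)) (fderiv ℝ f x c) +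
        chr g (f x) (fderiv ℝ f x (Y x)) (fderiv ℝ f x (Y x)) (fderiv ℝ f x c) =
        g (f x) (N.F (p, jet N.m g (f x), fderiv ℝ f x (Y x))) (fderiv ℝ f x c)) := fun hU c => by
    have m := P.met.symm _ (P.maps hx)
    rw [k2.2.2.2.2 _ _ _ _ _ P x hx, P.eq x hx, P.eq x hx, n3 hU, d, m (_ + _),
      (P.met.lin _ (P.maps hx) _).map_add, m (fderiv ℝ f x c), m (fderiv ℝ f x c)]
    constructor <;> intro h <;> linarith
  refine ⟨fun h => ⟨n1.1 h.1, fun c => ?_⟩, fun h => ⟨n1.2 h.1, fun c => (e (n1.2 h.1) c).2 (h.2 _)⟩⟩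
  obtain ⟨c, rfl⟩ := surj_of_inj (P.inj x hx) c
  exact (e h.1 c).1 (h.2 c)

end Vale.Agent.P354XV
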