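import Vale.Agent.P354YT.Line
import Vale.Agent.P354YI.Cg
import Vale.Agent.P354YR.Nf

/-!
The region which is swept by the lines of X from the slice.
-/

open scoped ContDiff
open Set Filter Topology

noncomputable section

namespace Vale.Agent.P354XV

open Vale.Agent.P354n (R4)
open Vale.Agent.P354I (rp)
open Vale.Agent.P354XE (Tw rd eT ka En ur dr)
open Vale.Agent.P354XA (rd_cont rd_cd rd_fd hor)
open Vale.Agent.P354YT
open Vale.Agent.P354YI (Sig0)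

/-- The points on the lines of X which start on the slice at r ≥ R1 - 1/2, and those of them which
are below the lid or in the collar. -/
def Sw (c : Pm) : Set R4 :=
  {p | p ∈ c.D ∧ (c.R1 - 1 / 2 ≤ rd p → tb c.M c.a (rd p) ≤ p.1) ∧ (rd p ≤ c.R1 - 1 / 2 →
    tb c.M c.a (c.R1 - 1 / 2) + (c.R1 - 1 / 2) ≤ p.1 + rd p)}
def Rv (c : Pm) (V : ℝ) : Set R4 := {p | p ∈ Sw c ∧ (c.tau p < V ∨ c.psi p < 0)}

/-- The line through p. -/
def ga (c : Pm) (Φ : R4 → R4) (p : R4) (s : ℝ) : R4 := Φ (c.Psi p + s • eT)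

variable {c : Pm} {Φ : R4 → R4} {p : R4} {s s' θ V : ℝ}

theorem O_sw (o : c.Ok) (h1 : c.R1 ≤ c.Rb)
    (h2 : tb c.M c.a (c.R1 - 1 / 2) + c.R1 ≤ tb c.M c.a c.Rb) : c.O ⊆ Sw c := fun p hp => by
  have r0 := o.pos hp.1
  have t : c.be (rd p) ≤ p.1 := by simpa using ((o.psi_lt r0 (-2)).not.1 hp.2.not_gt)
  refine ⟨hp.1, fun k => (o.be_ge (o.rpR.trans_le k)).trans t, fun k => ?_⟩
  linarith [o.be_near (show rd p ≤ c.Rb by linarith),
    o.be_ge (show rp c.M c.a < c.Rb by linarith [o.rpR])]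

theorem om_rv (h : c.O ⊆ Sw c) : c.sc.Om V ⊆ Rv c V := fun _ hp => ⟨h hp.1, hp.2⟩

section
variable (S : P354YT.Str c Φ) (hp : p ∈ c.D)
include S hp

theorem ga_P (s : ℝ) : c.Psi p + s • eT ∈ P0 := P0_sh (S.Psi_map hp) s
theorem ga_zero : ga c Φ p 0 = p := by rw [ga, zero_smul, add_zero, S.left p hp]
theorem ga_D (s : ℝ) : ga c Φ p s ∈ c.D := S.Phi_map (ga_P S hp s)

theorem ga_d (s : ℝ) :
    HasDerivAt (ga c Φ p) ((c.lam (ga c Φ p s))⁻¹ • c.X (ga c Φ p s)) s := by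
  have d := ((S.Phi_sm.contDiffAt (open_P0.mem_nhds (ga_P S hp s))).differentiableAt
    (by simp)).hasFDerivAt.comp_hasDerivAt s (((hasDerivAt_id s).smul_const eT).const_add _)
  rwa [one_smul, S.line _ (ga_P S hp s)] at d

theorem ga_cont : Continuous (ga c Φ p) :=
  continuous_iff_continuousAt.2 fun s => (ga_d S hp s).continuousAt

omit S hp in
theorem ga_add (s t : ℝ) : ga c Φ p (s + t) = Φ (c.Psi p + s • eT + t • eT) := by
  rw [ga, add_smul, add_assoc]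

theorem ga_tau (s : ℝ) : c.tau (ga c Φ p s) = c.tau p + s := by
  exact (congrArg Prod.fst (S.right _ (ga_P S hp s))).trans (by simp [eT, Pm.Psi, pol])

theorem ga_side (s t : ℝ) : (c.R1 < rd (ga c Φ p s) ↔ c.R1 < rd (ga c Φ p t)) ∧
    (rd (ga c Φ p s) < c.R1 ↔ rd (ga c Φ p t) < c.R1) := by
  have a := S.side _ (ga_P S hp s)
  have b := S.side _ (ga_P S hp t)
  rw [rd_sh] at a b
  exact ⟨a.1.symm.trans b.1, a.2.symm.trans b.2⟩

theorem ga_rad (h : s ≤ s') : |rd (ga c Φ p s) - c.R1| ≤ |rd (ga c Φ p s') - c.R1| :=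
  S.rad _ (S.Psi_map hp) h

theorem ga_low (h : s ≤ s') (k : c.R1 - 1 / 2 ≤ rd (ga c Φ p s')) :
    c.R1 - 1 / 2 ≤ rd (ga c Φ p s) := by
  rcases le_or_gt (rd (ga c Φ p s')) c.R1 with a | a
  · have := ga_rad S hp h
    rw [abs_of_nonpos (sub_nonpos.2 a)] at this
    linarith [(abs_le.1 this).1]
  · linarith [(ga_side S hp s' s).1.1 a]

theorem ga_out (h : s ≤ s') (k : c.R1 < rd (ga c Φ p s)) : rd (ga c Φ p s) ≤ rd (ga c Φ p s') := by
  have := ga_rad S hp h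
  rw [abs_of_pos (sub_pos.2 k), abs_of_pos (sub_pos.2 ((ga_side S hp s s').1.1 k))] at this
  linarith

theorem ga_up (h : s < s') (k : ga c Φ p s ∈ En c.M c.a c.r1 θ) :
    ga c Φ p s' ∈ interior (En c.M c.a c.r1 θ) := by
  have := S.up θ _ (ga_P S hp s) k (s' - s) (sub_pos.2 h)
  rwa [← ga_add (Φ := Φ), add_sub_cancel] at this

theorem ga_col (h : s ≤ 0) (k : 0 ≤ c.psi (ga c Φ p s)) : 0 ≤ c.psi p := by
  rcases h.eq_or_lt with rfl | h
  · rwa [ga_zero S hp] at k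
  · have := S.col 0 ⟨by norm_num, by norm_num⟩ _ (ga_P S hp s) k (-s) (neg_pos.2 h)
    rw [← ga_add (Φ := Φ), add_neg_cancel, ga_zero S hp] at this
    exact this.le

theorem ga_ret (h : s ≤ 0) (k : c.R1 + 1 / 2 ≤ rd (ga c Φ p s)) :
    ur c.M c.a (ga c Φ p s) = ur c.M c.a p := by
  have := S.ret _ (ga_P S hp s) k (-s) (neg_nonneg.2 h)
  rw [← ga_add (Φ := Φ), add_neg_cancel, ga_zero S hp] at this
  exact this.symm

theorem lam_cont (o : c.Ok) : Continuous fun s => (c.lam (ga c Φ p s))⁻¹ := by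
  obtain ⟨c0, h0, k⟩ := o.lam_pos
  refine continuous_iff_continuousAt.2 fun s => ContinuousAt.inv₀ ?_
    (h0.trans_le (k _ (ga_D S hp s))).ne'
  exact (((P354RC.at_fd (o.tau_cd (ga_D S hp s))).clm_apply
    (o.X_cd (o.pos (ga_D S hp s)))).continuousAt).comp (ga_cont S hp).continuousAt

end

theorem ex_out (o : c.Ok) (S : P354YT.Str c Φ) (hp : p ∈ Sw c) : ∃ s ≤ (0 : ℝ),
    c.R1 - 1 / 2 ≤ rd (ga c Φ p s) ∧ tb c.M c.a (rd (ga c Φ p s)) ≤ (ga c Φ p s).1 := by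
  have z := ga_zero S hp.1
  rcases le_total (c.R1 - 1 / 2) (rd p) with k | k
  · exact ⟨0, le_rfl, by rwa [z], by rw [z]; exact hp.2.1 k⟩
  have cr := rd_cont.comp (ga_cont S hp.1)
  obtain ⟨s2, h1, h2⟩ := (((S.time _ (S.Psi_map hp.1)).2.2.2.eventually_const_le
    (show c.R1 - 1 / 2 < c.R1 by linarith)).and (eventually_le_atBot 0)).exists
  obtain ⟨s, hs, e⟩ := intermediate_value_Icc' h2 cr.continuousOn
    (show c.R1 - 1 / 2 ∈ _ from ⟨by rwa [Function.comp, z], h1⟩)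
  have e : rd (ga c Φ p s) = c.R1 - 1 / 2 := e
  have d : ∀ x ∈ Icc s 0, HasDerivAt (fun x => (ga c Φ p x).1 + rd (ga c Φ p x)) 0 x :=
    fun x hx => by
    have r0 := (o.pos (ga_D S hp.1 x)).ne'
    have a := ga_rad S hp.1 hx.1
    have b := (ga_side S hp.1 s x).2.1 (by linarith)
    rw [e, abs_of_neg (sub_neg.2 b), abs_of_neg (by linarith)] at a
    obtain ⟨e1, e2, e3⟩ := al_in (o.xi_in (show rd (ga c Φ p x) ≤ _ by linarith))
    refine ((hasFDerivAt_fst.add ((rd_cd (n := 1) r0).differentiableAt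
      one_ne_zero).hasFDerivAt).comp_hasDerivAt x (ga_d S hp.1 x)).congr_deriv ?_
    rw [map_smul, add_apply, rd_fd r0, Pm.X_dr c r0, ContinuousLinearMap.coe_fst', Pm.X_fst,
      Pm.aa, Pm.rr, ← rt_mul, e1, e2, e3]
    simp
  have := constant_of_has_deriv_right_zero (fun x h => (d x h).continuousAt.continuousWithinAt)
    (fun x h => (d x (Ico_subset_Icc_self h)).hasDerivWithinAt) 0 (right_mem_Icc.2 hs.2)
  simp only [z, e] at this
  exact ⟨s, hs.2, e.ge, by rw [e]; linarith [hp.2.2 k]⟩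

/-- The line through p starts on the slice. -/
theorem ex_start (o : c.Ok) (S : P354YT.Str c Φ) (hp : p ∈ Sw c) : ∃ a ≤ (0 : ℝ),
    ga c Φ p a ∈ Sig0 c.M c.a ∧ c.R1 - 1 / 2 ≤ rd (ga c Φ p a) := by
  obtain ⟨s1, h0, h1, h2⟩ := ex_out o S hp
  obtain ⟨s3, h3, h4⟩ := (((S.time _ (S.Psi_map hp.1)).2.2.1.eventually_le_atBot
    (tb c.M c.a (c.R1 - 1 / 2))).and (eventually_le_atBot s1)).exists
  have k : ∀ s ≤ s1, rp c.M c.a < rd (ga c Φ p s) := fun s h =>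
    o.rpR.trans_le (ga_low S hp.1 h h1)
  obtain ⟨a, ha, e⟩ := intermediate_value_Icc (f := fun s => (ga c Φ p s).1 -
      tb c.M c.a (rd (ga c Φ p s))) h4 (fun s h => ((ga_cont S hp.1).continuousAt.fst.sub
      ((tb_d o.sub (k s h.2)).continuousAt.comp (f := fun s => rd (ga c Φ p s))
        (rd_cont.comp (ga_cont S hp.1)).continuousAt)).continuousWithinAt)
    (show (0 : ℝ) ∈ _ from ⟨sub_nonpos.2 (h3.trans (o.tb_mono o.rpR (k s3 h4)
      (ga_low S hp.1 h4 h1))), sub_nonneg.2 h2⟩)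
  exact ⟨a, ha.2.trans h0, ⟨k a ha.2, sub_eq_zero.1 e⟩, ga_low S hp.1 ha.2 h1⟩

/-- After the start the line is in the end, at late times. -/
theorem ga_en (o : c.Ok) (S : P354YT.Str c Φ) (hp : p ∈ c.D) {a : ℝ} (h : ga c Φ p a ∈ Sig0 c.M c.a)
    (k : c.R1 - 1 / 2 ≤ rd (ga c Φ p a)) (hs : a ≤ s)
    (hθ : θ ≤ Real.exp (ka c.M c.a * tb c.M c.a (c.R1 - 1 / 2))) :
    ga c Φ p s ∈ En c.M c.a c.r1 θ ∧ θ ≤ Real.exp (ka c.M c.a * (ga c Φ p s).1) := by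
  have t : ∀ s ≥ a, θ ≤ Real.exp (ka c.M c.a * (ga c Φ p s).1) := fun s hs =>
    hθ.trans (Real.exp_le_exp.2 (mul_le_mul_of_nonneg_left (((o.tb_mono o.rpR h.1 k).trans
      h.2.ge).trans ((S.time _ (S.Psi_map hp)).1.monotone hs)) (hor o.sub).2.2.2.2.1.le))
  have e := (o.En_iff θ _).2 ⟨ga_D S hp a, t a le_rfl, fun _ => h.2.ge⟩
  refine ⟨?_, t s hs⟩
  rcases hs.eq_or_lt with rfl | hs
  exacts [e, interior_subset (ga_up S hp hs e)]

theorem sig_psi (o : c.Ok) (h : p ∈ Sig0 c.M c.a) (r0 : 0 < rd p) : c.psi p < 0 :=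
  (o.psi_lt r0 0).2 (by nlinarith [h.2, o.be_ge h.1, mul_pos o.del.1 r0])

/-- The lines with small retarded time start far out. -/
theorem start_far (o : c.Ok) (S : P354YT.Str c Φ) (hp : p ∈ c.D) {a ρ : ℝ} (a0 : a ≤ 0)
    (h : ga c Φ p a ∈ Sig0 c.M c.a) (k : c.R1 - 1 / 2 ≤ rd (ga c Φ p a)) (hρ : c.R1 + 1 ≤ ρ)
    (hr : ρ ≤ rd p) (hu : ur c.M c.a p ≤ -ρ - tb c.M c.a ρ) : ρ ≤ rd (ga c Φ p a) := by
  by_contra n
  have n := not_le.1 n
  have m : max (rd (ga c Φ p a)) (c.R1 + 1 / 2) < ρ := max_lt n (by linarith)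
  obtain ⟨s, hs, e⟩ := intermediate_value_Icc a0 (rd_cont.comp (ga_cont S hp)).continuousOn
    (show max (rd (ga c Φ p a)) (c.R1 + 1 / 2) ∈ _ from
      ⟨le_max_left _ _, by rw [Function.comp, ga_zero S hp]; linarith⟩)
  have e : rd (ga c Φ p s) = _ := e
  have b : c.R1 + 1 / 2 ≤ rd (ga c Φ p s) := e ▸ le_max_right _ _
  have r : rp c.M c.a < rd (ga c Φ p s) := by linarith [o.rpR]
  have t := ((o.En_iff _ _).1 (ga_en o S hp h k hs.1 le_rfl).1).2.2 r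
  have u := ga_ret S hp hs.2 b
  rw [P354XA.ur_eq, psi_tb] at u
  linarith [o.tb_mono r (show rp c.M c.a < ρ by linarith [o.rpR]) (e ▸ m.le)]

theorem shell_cpt (o : c.Ok) (ρ : ℝ) :
    IsCompact {p ∈ rd ⁻¹' Icc (c.R1 - 1 / 2) ρ | p.1 = tb c.M c.a (rd p)} := by
  refine Metric.isCompact_of_isClosed_isBounded ((isClosed_Icc.preimage rd_cont).isClosed_eq
    continuousOn_fst fun p hp => ((tb_d o.sub (o.rpR.trans_le hp.1)).continuousAt.comp
      rd_cont.continuousAt).continuousWithinAt) (isBounded_iff_forall_norm_le.2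
    ⟨|tb c.M c.a (c.R1 - 1 / 2)| + |tb c.M c.a ρ| + |ρ|, fun p hp => ?_⟩)
  have r := o.rpR.trans_le hp.1.1
  have t1 := o.tb_mono o.rpR r hp.1.1
  have t2 := o.tb_mono r (r.trans_le hp.1.2) hp.1.2
  have q := P354YR.rd_sq p
  have b : ∀ x : ℝ, x ^ 2 ≤ rd p ^ 2 →
      |x| ≤ |tb c.M c.a (c.R1 - 1 / 2)| + |tb c.M c.a ρ| + |ρ| := fun x hx =>
    (abs_le_of_sq_le_sq' hx (P354YR.rd_nn p) |> abs_le.2).trans (by
      linarith [hp.1.2, le_abs_self ρ, abs_nonneg (tb c.M c.a ρ),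
        abs_nonneg (tb c.M c.a (c.R1 - 1 / 2))])
  simp only [Prod.norm_def, max_le_iff, Real.norm_eq_abs]
  refine ⟨abs_le.2 ⟨?_, ?_⟩, b _ (by nlinarith), b _ (by nlinarith), b _ (by nlinarith)⟩ <;>
    linarith [hp.2, abs_nonneg ρ, abs_nonneg (tb c.M c.a ρ), le_abs_self (tb c.M c.a ρ),
      neg_abs_le (tb c.M c.a (c.R1 - 1 / 2)), abs_nonneg (tb c.M c.a (c.R1 - 1 / 2))]

end Vale.Agent.P354XV
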