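import Vale.Agent.P354XV.Fir
import Vale.Agent.P354XV.Sw
import Vale.Agent.P354YA.One
import Vale.Agent.P354YA.Nis
import Vale.Agent.P354YR.Nkg
import Vale.Agent.P354YQ.Vg

/-!
FIRST: the first order form of the gauge for a state.
-/

set_option maxSynthPendingDepth 3

open scoped ContDiff
open Set Filter Topology

noncomputable section

namespace Vale.Agent.P354XV

open Vale.Agent.P354n (R4)
open Vale.Agent.P354RC (bs Gm Rp at_fd fd_ap)
open Vale.Agent.P354XD (tb rp_tb dh_eq gm_symm)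
open Vale.Agent.P354XE (Tw rd eT ka En ur gin Lo xs)
open Vale.Agent.P354XA (rd_cont)
open Vale.Agent.P354YN (Ad lN nN FLD KERR)
open Vale.Agent.P354YA (nat W0 UW Wok NW NF Ok2 St2 Fa_far FIR dd)
open Vale.Agent.P354YT (Pm TAU)
open Vale.Agent.P354YI (Cg Sig0 Sm)
open Vale.Agent.P354YR (gin_met open_ne xs_ne)

/-- The first order form of the gauge at p. -/
structure Fst (c : Pm) (κ : ℝ) (g : Tw) (p : R4) : Prop where
  lv : ∃ W, Lv g W ∧ p ∈ W
  gau : Gq (nat c κ) p g c.X p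
  ad : |dd c p| ≤ 7 / 4 → Ad c.M g (c.X p) p
  sh : |dd c p| ≤ 5 / 4 → c.X p = Yx c g p
  out : 1 / 2 ≤ dd c p → dd c p ≤ 5 / 4 → c.X p = lN c.M g (c.X p) p
  inn : dd c p ≤ -(1 / 2) → -(5 / 4) ≤ dd c p → c.X p = nN c.M g (c.X p) p
  nul : 1 / 2 ≤ |dd c p| → g p (c.X p) (c.X p) = 0
  geo : 7 / 4 ≤ |dd c p| → fderiv ℝ c.X p (c.X p) + Gm (tb g) p (c.X p) (c.X p) = 0

/-- The form of Lo is that of Kerr on the lines which start at r ≥ R1 + 2. -/
def Flt (c : Pm) (g : Tw) (p : R4) : Prop :=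
  c.R1 + 2 ≤ rd p → ur c.M c.a p ≤ -(c.R1 + 2) - P354YT.tb c.M c.a (c.R1 + 2) →
    ∀ v, g p (Lo c.M c.a p) v = gin c.M c.a p (Lo c.M c.a p) v

/-- The bound for the constants of the end. -/
def th0 (c : Pm) : ℝ := Real.exp (ka c.M c.a * P354YT.tb c.M c.a (c.R1 - 1 / 2))

/-- FIRST. -/
def FIRST : Prop :=
  ∀ c, Ok2 c → ∃ e0 > 0, ∀ κ θ θ1 m e gc V g, 3 ≤ m → e ≤ e0 → θ ≤ th0 c → 3 / 2 * θ1 ≤ th0 c →
    Cg c (nat c κ) 3 (W0 c) θ θ1 m e gc → St2 (nat c κ) c.sc gc V g →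
    ∀ p ∈ Rv c V, Fst c κ g p ∧ Flt c g p

variable {c : Pm} {Φ : R4 → R4} {p : R4} {κ θ θ1 e V a : ℝ} {m : ℕ} {g gc : Tw} {W D : Set R4}

/-- Small perturbations of Kerr are in the domain of the initial velocity. -/
theorem ex_e0 (o : c.Ok) (w : Wok c) : ∃ e0 > 0, ∀ p ∈ Sig0 c.M c.a,
    rd p ∈ Icc (c.R1 - 1 / 2) (c.R1 + 2) → ∀ g W, Lv g W → p ∈ W →
      (∀ e ≤ e0, Sm 3 e (g - gin c.M c.a) p → (p, jet 3 g p) ∈ UW c) := by
  have m := gin_met (M := c.M) (a := c.a) (D := {p | xs p ≠ 0}) fun _ h => h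
  have r0 : ∀ p : R4, c.R1 - 1 / 2 ≤ rd p → xs p ≠ 0 := fun p h =>
    xs_ne (by linarith [o.R1, o.M0])
  obtain ⟨δ, d0, hδ⟩ := ((shell_cpt o (c.R1 + 2)).image_of_continuousOn
    (continuousOn_id.prodMk ((jet_cd 3 open_ne m).continuousOn.mono fun p hp =>
      r0 p hp.1.1))).exists_cthickening_subset_open w.opn (by
    rintro _ ⟨p, hp, rfl⟩
    exact (w.kerr p (o.rpR.trans_le hp.1.1)).1)
  refine ⟨δ, d0, fun p hp hr g W l hW e he s => hδ (Metric.mem_cthickening_of_dist_le _ _ _ _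
    ⟨p, ⟨hr, hp.2⟩, rfl⟩ ?_)⟩
  rw [Prod.dist_eq, show dist p (id p) = 0 from dist_self p, dist_eq_norm, max_le_iff, ← P354YQ.jet_sub
    (l.isOpen.inter open_ne) (met_mono l.met inter_subset_left) (met_mono m inter_subset_right)
    ⟨hW, r0 p hr.1⟩]
  refine ⟨d0.le, (pi_norm_le_iff_of_nonneg d0.le).2 fun n => (pi_norm_le_iff_of_nonneg d0.le).2
    fun α => (pi_norm_le_iff_of_nonneg d0.le).2 fun i => (pi_norm_le_iff_of_nonneg d0.le).2
      fun j => ?_⟩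
  refine (ContinuousMultilinearMap.le_of_opNorm_le (s n (Nat.lt_succ_iff.1 n.2) _ _) _).trans ?_
  simp only [P354YI.norm_bs, Finset.prod_const_one, mul_one]
  have := one_le_pow₀ (n := n + 1) (show 1 ≤ 1 + rd p by linarith [P354YR.rd_nn p])
  exact (div_le_div_of_nonneg_right he (by linarith)).trans (div_le_self d0.le this)

theorem gin_LL (o : c.Ok) (h : c.R1 ≤ rd p) : gin c.M c.a p (Lo c.M c.a p) (Lo c.M c.a p) = 0 := by
  have r0 : xs p ≠ 0 := xs_ne (by linarith [o.R1, o.M0])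
  have d := (P354YT.Del_pos o.sub (show _ < rd p by linarith [o.rpR])).ne'
  have a := (P354YR.LN_val r0 d).2.1
  rw [P354YR.gin_LN r0 d] at a
  rw [P354YR.gin_Lo r0 d]
  rw [P354XA.dr_Lo (P354YR.rd_pos r0).ne'] at a ⊢
  simp only [mul_div_assoc] at a ⊢
  linarith

theorem X_out (o : c.Ok) (h : 1 / 2 ≤ dd c p) : c.X p = Lo c.M c.a p := by
  obtain ⟨e1, e2, e3⟩ := co_out o h
  simp [P354YA.X_eq, e1, e2, e3]

/-- The hypotheses. -/
structure Fh (c : Pm) (Φ : R4 → R4) (κ θ θ1 : ℝ) (m : ℕ) (e : ℝ) (gc : Tw) (V : ℝ) (g : Tw)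
    (W : Set R4) : Prop where
  o : Ok2 c
  S : P354YT.Str c Φ
  w : Wok c
  h1 : θ ≤ th0 c
  h2 : 3 / 2 * θ1 ≤ th0 c
  G : Cg c (nat c κ) 3 (W0 c) θ θ1 m e gc
  st : St2 (nat c κ) c.sc gc V g
  l : Lv gc W
  sub : P354YI.Ab c θ ⊆ W
  u : ∀ p ∈ Sig0 c.M c.a, p ∈ P354YI.Ab c θ → rd p ∈ Icc (c.R1 - 1 / 2) (c.R1 + 2) →
    (p, jet 3 gc p) ∈ UW c

/-- The part of the collar in which g is gc, and the domain of g. -/
def Cl0 (c : Pm) : Set R4 := {p | p ∈ c.D ∧ c.psi p < 0}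
def Wv (c : Pm) (V : ℝ) (W : Set R4) : Set R4 := c.sc.Om V ∪ W ∩ Cl0 c

theorem cl0_open (o : c.Ok) : IsOpen (Cl0 c) :=
  ContinuousOn.isOpen_inter_preimage (fun _ hp => (o.psi_cd (o.pos hp)).continuousAt.continuousWithinAt)
    c.open_D isOpen_Iio

namespace Fh
variable (H : Fh c Φ κ θ θ1 m e gc V g W)
include H

theorem ev (hp : p ∈ Cl0 c) : g =ᶠ[𝓝 p] gc := by
  filter_upwards [(cl0_open H.o.1).mem_nhds hp] with x hx
  by_cases k : x ∈ c.sc.O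
  exacts [H.st.1.col ⟨k, hx.2⟩, H.st.2 k]

theorem lv : Lv g (Wv c V W) :=
  lv_local (H.st.1.lv.isOpen.union (H.l.isOpen.inter (cl0_open H.o.1))) fun _ hp => hp.elim
    (fun k => ⟨g, _, H.st.1.lv, k, EventuallyEq.rfl⟩) fun k => ⟨gc, W, H.l, k.1, H.ev k.2⟩

variable (hp : p ∈ Rv c V) (h : ga c Φ p a ∈ Sig0 c.M c.a) (k : c.R1 - 1 / 2 ≤ rd (ga c Φ p a))
include hp h k

theorem line : ∀ s ∈ Icc a 0, ga c Φ p s ∈ Wv c V W ∧ 0 < rd (ga c Φ p s) ∧
    HasDerivAt (ga c Φ p) ((c.lam (ga c Φ p s))⁻¹ • c.X (ga c Φ p s)) s ∧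
    Gq (nat c κ) (ga c Φ p s) g c.X (ga c Φ p s) := fun s hs => by
  have d := ga_D H.S hp.1.1 s
  suffices ga c Φ p s ∈ Wv c V W ∧ Gq (nat c κ) (ga c Φ p s) g c.X (ga c Φ p s) from
    ⟨this.1, H.o.1.pos d, ga_d H.S hp.1.1 s, this.2⟩
  rcases lt_or_ge (c.psi (ga c Φ p s)) 0 with n | n
  · have b : ga c Φ p s ∈ P354YI.Ab c θ :=
      ⟨(ga_en H.o.1 H.S hp.1.1 h k hs.1 H.h1).1, by linarith⟩
    exact ⟨Or.inr ⟨H.sub b, d, n⟩, (H.G.gau _ b
      (ga_en H.o.1 H.S hp.1.1 h k hs.1 H.h2).2).self_of_nhds.congr (H.ev ⟨d, n⟩) .rfl⟩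
  · have t := hp.2.resolve_right (ga_col H.S hp.1.1 hs.2 n).not_gt
    have b : ga c Φ p s ∈ c.sc.Om V := ⟨⟨d, by linarith⟩, Or.inl
      ((ga_tau H.S hp.1.1 s).trans_lt (by linarith [hs.2]))⟩
    exact ⟨Or.inl b, H.st.1.gau _ b⟩

/-- The values at the start. -/
theorem ini : (dd c (ga c Φ p a) ≤ 5 / 4 → c.X (ga c Φ p a) = Yx c g (ga c Φ p a)) ∧
    (1 / 2 ≤ dd c (ga c Φ p a) → g (ga c Φ p a) (c.X (ga c Φ p a)) (c.X (ga c Φ p a)) = 0) ∧
    (c.R1 + 2 ≤ rd (ga c Φ p a) → ∀ v, g (ga c Φ p a) (Lo c.M c.a (ga c Φ p a)) v =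
      gin c.M c.a (ga c Φ p a) (Lo c.M c.a (ga c Φ p a)) v) := by
  have d := ga_D H.S hp.1.1 a
  have n := sig_psi H.o.1 h (H.o.1.pos d)
  have b : ga c Φ p a ∈ P354YI.Ab c θ := ⟨(ga_en H.o.1 H.S hp.1.1 h k le_rfl H.h1).1, by linarith⟩
  obtain ⟨i1, i2⟩ := H.G.ini _ h (ga_en H.o.1 H.S hp.1.1 h k le_rfl H.h2).2
  have ev := H.ev ⟨d, n⟩
  generalize ga c Φ p a = x at *
  rw [Yx, jet_congr 3 ev, ev.eq_of_nhds]
  refine ⟨fun t => ?_, fun t => ?_, i2⟩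
  · rw [i1]
    exact (H.w.near gc W x H.l (H.sub b) (H.u x h b ⟨k, by unfold dd at t; linarith⟩) t).2
  · rcases le_total (rd x) (c.R1 + 2) with r | r
    · rw [i1]
      exact H.w.nul gc W x H.l (H.sub b) (H.u x h b ⟨k, r⟩) (t.trans (le_abs_self _))
    · rw [X_out H.o.1 t, i2 r, gin_LL H.o.1 (by linarith)]

theorem sh (hF : FIR) : ∀ s ∈ Icc a 0, |dd c (ga c Φ p s)| ≤ 5 / 4 →
    c.X (ga c Φ p s) = Yx c g (ga c Φ p s) := fun s hs t =>
  have b : ∀ x ∈ Icc a s, |dd c (ga c Φ p x)| ≤ 5 / 4 := fun _ hx =>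
    (ga_rad H.S hp.1.1 hx.2).trans t
  (hF c H.o κ g _ _ _ a s hs.1 H.lv (lam_cont H.S hp.1.1 H.o.1).continuousOn fun x hx =>
    H.line hp h k x ⟨hx.1, hx.2.trans hs.2⟩).1 b
    ((H.ini hp h k).1 ((le_abs_self _).trans (b a (left_mem_Icc.2 hs.1))))

end Fh

theorem yx_out (o : c.Ok) (h : 1 / 2 ≤ dd c p) : Yx c g p = lN c.M g (c.X p) p := by
  simp [Yx, P354YA.Yv, co_out o h, lN]
theorem yx_in (o : c.Ok) (h : dd c p ≤ -(1 / 2)) : Yx c g p = nN c.M g (c.X p) p := by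
  simp [Yx, P354YA.Yv, co_in o h, nN]

theorem nul_of (hF : FLD) (o : c.Ok) (l : Lv g D) (hp : p ∈ D) (a : Ad c.M g (c.X p) p)
    (e : c.X p = Yx c g p) (h : 1 / 2 ≤ |dd c p|) : g p (c.X p) (c.X p) = 0 := by
  have f := hF _ g D _ p l hp a
  rcases le_abs'.1 h with k | k
  · have := f.nn; rwa [← yx_in o k, ← e] at this
  · have := f.ll; rwa [← yx_out o k, ← e] at this

theorem Fh.fst (H : Fh c Φ κ θ θ1 m e gc V g W) (hF : FLD) (hR : FIR) (hp : p ∈ Rv c V) :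
    Fst c κ g p := by
  obtain ⟨a, a0, h, k⟩ := ex_start H.o.1 H.S hp.1
  have L := H.line hp h k
  have A : ∀ s ∈ Icc a 0, |dd c (ga c Φ p s)| ≤ 7 / 4 → Ad c.M g (c.X (ga c Φ p s)) (ga c Φ p s) :=
    fun s hs t => (L s hs).2.2.2.1.resolve_left t.not_gt
  have N : ∀ s ∈ Icc a 0, |dd c (ga c Φ p s)| ≤ 5 / 4 → 1 / 2 ≤ |dd c (ga c Φ p s)| → _ :=
    fun s hs t => nul_of hF H.o.1 H.lv (L s hs).1 (A s hs (by linarith)) (H.sh hp h k hR s hs t)
  have z := right_mem_Icc.2 a0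
  have e := ga_zero H.S hp.1.1
  have P : ∀ s ∈ Icc a 0, 1 ≤ |dd c (ga c Φ p s)| → g p (c.X p) (c.X p) =
      g (ga c Φ p s) (c.X (ga c Φ p s)) (c.X (ga c Φ p s)) := fun s hs t => by
    have := (hR c H.o κ g _ _ _ s 0 hs.2 H.lv (lam_cont H.S hp.1.1 H.o.1).continuousOn fun x hx =>
      L x ⟨hs.1.trans hx.1, hx.2⟩).2 fun x hx => t.trans (ga_rad H.S hp.1.1 hx.1)
    rwa [e] at this
  obtain ⟨l1, -, -, l2⟩ := L 0 z
  have s := H.sh hp h k hR 0 z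
  have A0 := A 0 z
  have N0 := N 0 z
  rw [e] at l1 l2 s A0 N0
  refine ⟨⟨_, H.lv, l1⟩, l2, A0, s, fun a b => (s (abs_le.2 ⟨by linarith, b⟩)).trans (yx_out H.o.1 a),
    fun a b => (s (abs_le.2 ⟨b, by linarith⟩)).trans (yx_in H.o.1 a), fun t => ?_,
    fun t => (l2.acc H.lv l1).trans (Fa_far t _)⟩
  rcases le_total |dd c p| (5 / 4) with u | u
  · exact N0 u t
  rcases le_total 1 |dd c (ga c Φ p a)| with v | v
  · rw [P a (left_mem_Icc.2 a0) v]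
    refine (H.ini hp h k).2.1 ?_
    rcases le_abs'.1 v with v | v
    · unfold dd at v; linarith
    · linarith
  · obtain ⟨s, hs, b⟩ := intermediate_value_Icc a0
      (dd_cont.comp (ga_cont H.S hp.1.1)).abs.continuousOn
      (show (1 : ℝ) ∈ _ from ⟨v, by rw [Function.comp, e]; linarith⟩)
    have b : |dd c (ga c Φ p s)| = 1 := b
    rw [P s hs b.ge, N s hs (by linarith) (by linarith)]

/-- The Lie derivative of the form of a null geodesic field vanishes. -/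
theorem lie0 {h : R4 → P354RC.B2} {X : R4 → R4} (r : Rp g h D) (hp : p ∈ D)
    (hX : ContDiffAt ℝ ∞ X p) (e : fderiv ℝ X p (X p) + Gm h p (X p) (X p) = 0)
    (n : fderiv ℝ (fun x => h x (X x) (X x)) p = 0) :
    fderiv ℝ (fun x => h x (X x)) p (X p) = -(h p (X p)).comp (fderiv ℝ X p) := by
  refine ContinuousLinearMap.ext fun v => ?_
  have n := DFunLike.congr_fun n v
  have e := congrArg (fun u => h p u v) e
  rw [fd_ap ((r.at hp).clm_apply hX) hX, fd_ap (r.at hp) hX] at n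
  rw [fd_ap (r.at hp) hX]
  simp only [add_apply, map_add, dh_eq r hp, r.symm p hp (X p), gm_symm r hp (X p) v, map_zero,
    zero_apply, neg_apply, ContinuousLinearMap.comp_apply] at n e ⊢
  linarith

theorem rv_nhds (H : Fh c Φ κ θ θ1 m e gc V g W) (hp : p ∈ Rv c V) {s : ℝ} (hs : s ≤ 0)
    (i : ga c Φ p s ∈ interior (En c.M c.a c.r1 θ)) (r : c.R1 < rd (ga c Φ p s)) :
    Rv c V ∈ 𝓝 (ga c Φ p s) := by
  have d := ga_D H.S hp.1.1 s
  have t : ∀ᶠ x in 𝓝 (ga c Φ p s), c.tau x < V ∨ c.psi x < 0 := by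
    rcases lt_or_ge (c.psi (ga c Φ p s)) 0 with n | n
    · exact ((H.o.1.psi_cd (H.o.1.pos d)).continuousAt.eventually_lt_const n).mono fun _ => Or.inr
    · have t := hp.2.resolve_right (ga_col H.S hp.1.1 hs n).not_gt
      exact ((H.o.1.tau_cd d).continuousAt.eventually_lt_const
        ((ga_tau H.S hp.1.1 s).trans_lt (by linarith))).mono fun _ => Or.inl
  filter_upwards [t, mem_interior_iff_mem_nhds.1 i, rd_cont.continuousAt.eventually_const_lt r]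
    with x h1 h2 h3
  have := (H.o.1.En_iff _ _).1 h2
  exact ⟨⟨this.1, fun _ => this.2.2 (by linarith [H.o.1.rpR]), fun _ => by linarith⟩, h1⟩

theorem Fh.flt (H : Fh c Φ κ θ θ1 m e gc V g W) (hF : FLD) (K : KERR) (hR : FIR) (hp : p ∈ Rv c V) :
    Flt c g p := fun hr hu => by
  obtain ⟨a, a0, h, k⟩ := ex_start H.o.1 H.S hp.1
  have o := H.o.1
  have L := H.line hp h k
  have f := start_far o H.S hp.1.1 a0 h k (by linarith) hr hu
  have R : ∀ s ∈ Icc a 0, c.R1 + 2 ≤ rd (ga c Φ p s) := fun s hs =>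
    f.trans (ga_out H.S hp.1.1 hs.1 (by linarith))
  have d : ∀ s ∈ Icc a 0, 2 ≤ dd c (ga c Φ p s) := fun s hs => by unfold dd; linarith [R s hs]
  have r := rp_tb H.lv.isOpen H.lv.met
  have r' := rp_tb open_ne (gin_met (M := c.M) (a := c.a) fun _ h => h)
  have hX : ∀ s ∈ Icc a 0, ContDiffAt ℝ ∞ c.X (ga c Φ p s) := fun s hs => o.X_cd (L s hs).2.1
  have cq : ContinuousOn (fun s => fderiv ℝ (fun x => tb g x (c.X x) (c.X x)) (ga c Φ p s))
      (Icc a 0) := fun s hs => ((at_fd (((r.at (L s hs).1).clm_apply (hX s hs)).clm_apply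
        (hX s hs))).continuousAt.comp (ga_cont H.S hp.1.1).continuousAt).continuousWithinAt
  have n1 : ∀ s ∈ Ioc a 0, fderiv ℝ (fun x => tb g x (c.X x) (c.X x)) (ga c Φ p s) = 0 :=
    fun s hs => by
    have hs' := Ioc_subset_Icc_self hs
    have : (fun x => tb g x (c.X x) (c.X x)) =ᶠ[𝓝 (ga c Φ p s)] fun _ => 0 := by
      filter_upwards [rv_nhds H hp hs.2 (ga_up H.S hp.1.1 hs.1
        (ga_en o H.S hp.1.1 h k le_rfl H.h1).1) (by linarith [R s hs']),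
        H.lv.isOpen.mem_nhds (L s hs').1, dd_cont.continuousAt.eventually_const_lt
          (show 1 < dd c _ by linarith [d s hs'])] with x h1 h2 h3
      rw [← r.eq x h2]
      exact (H.fst hF hR h1).nul (le_trans (by linarith) (le_abs_self _))
    rw [this.fderiv_eq, fderiv_fun_const, Pi.zero_apply]
  have n2 : ∀ s ∈ Icc a 0, fderiv ℝ (fun x => tb (gin c.M c.a) x (c.X x) (c.X x)) (ga c Φ p s) = 0 :=
    fun s hs => by
    have : (fun x => tb (gin c.M c.a) x (c.X x) (c.X x)) =ᶠ[𝓝 (ga c Φ p s)] fun _ => 0 := by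
      filter_upwards [dd_cont.continuousAt.eventually_const_lt
        (show 1 < dd c _ by linarith [d s hs])] with x h3
      have : c.R1 ≤ rd x := by unfold dd at h3; linarith
      rw [← r'.eq x (xs_ne (by linarith [o.R1, o.M0])), X_out o (by linarith), gin_LL o this]
    rw [this.fderiv_eq, fderiv_fun_const, Pi.zero_apply]
  have z := right_mem_Icc.2 a0
  have i := (H.ini hp h k).2.2 f
  rcases a0.eq_or_lt with rfl | a1
  · rwa [ga_zero H.S hp.1.1] at i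
  have n3 : ∀ s ∈ Icc a 0, fderiv ℝ (fun x => tb g x (c.X x) (c.X x)) (ga c Φ p s) = 0 :=
    fun s hs => (isClosed_Icc.isClosed_eq cq continuousOn_const).closure_subset_iff.2
      (fun s hs => ⟨Ioc_subset_Icc_self hs, n1 s hs⟩) (by rwa [closure_Ioc a1.ne]) |>.2
  have E : ∀ s ∈ Icc a 0, HasDerivAt (fun s => tb g (ga c Φ p s) (c.X (ga c Φ p s)) -
      tb (gin c.M c.a) (ga c Φ p s) (c.X (ga c Φ p s))) (-(tb g (ga c Φ p s) (c.X (ga c Φ p s)) -
      tb (gin c.M c.a) (ga c Φ p s) (c.X (ga c Φ p s))).comp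
        ((c.lam (ga c Φ p s))⁻¹ • fderiv ℝ c.X (ga c Φ p s))) s := fun s hs => by
    obtain ⟨l1, l2, l3, l4⟩ := L s hs
    refine (((((r.at l1).clm_apply (hX s hs)).differentiableAt (by simp)).hasFDerivAt.comp_hasDerivAt
      s l3).sub ((((r'.at (xs_ne l2)).clm_apply (hX s hs)).differentiableAt
        (by simp)).hasFDerivAt.comp_hasDerivAt s l3)).congr_deriv ?_
    rw [map_smul, map_smul, lie0 r l1 (hX s hs) ((l4.acc H.lv l1).trans (Fa_far (le_trans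
      (by linarith [d s hs]) (le_abs_self _)) _)) (n3 s hs), lie0 r' (xs_ne l2) (hX s hs)
      (P354YR.acc_out hF K o (by linarith [d s hs])) (n2 s hs)]
    refine ContinuousLinearMap.ext fun v => ?_
    simp only [sub_apply, smul_apply, neg_apply, ContinuousLinearMap.comp_apply, map_smul,
      smul_eq_mul]
    ring
  obtain ⟨C, hC⟩ := isCompact_Icc.exists_bound_of_continuousOn (s := Icc a 0)
    (f := fun s => (c.lam (ga c Φ p s))⁻¹ • fderiv ℝ c.X (ga c Φ p s)) fun s hs =>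
    ((lam_cont H.S hp.1.1 o).continuousAt.smul ((at_fd (hX s hs)).continuousAt.comp
      (ga_cont H.S hp.1.1).continuousAt)).continuousWithinAt
  have := eq_zero_of_abs_deriv_le_mul_abs_self_of_eq_zero_right (K := C)
    (fun s h => (E s h).continuousAt.continuousWithinAt)
    (fun s h => (E s (Ico_subset_Icc_self h)).hasDerivWithinAt) (ContinuousLinearMap.ext fun v => by
      obtain ⟨l1, l2, -⟩ := L a (left_mem_Icc.2 a0)
      rw [sub_apply, ← r.eq _ l1, ← r'.eq _ (xs_ne l2), X_out o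
        (by linarith [d a (left_mem_Icc.2 a0)]), i, sub_self, zero_apply]) (fun s h => by
      rw [norm_neg, mul_comm]
      exact (ContinuousLinearMap.opNorm_comp_le _ _).trans (mul_le_mul_of_nonneg_left
        (hC s (Ico_subset_Icc_self h)) (norm_nonneg _))) 0 z
  obtain ⟨l1, l2, -⟩ := L 0 z
  have d0 := d 0 z
  rw [ga_zero H.S hp.1.1] at this l1 l2 d0
  intro v
  rw [r.eq _ l1, r'.eq _ (xs_ne l2), ← X_out o (by linarith), sub_eq_zero.1 this]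

theorem first (hN : NF) (hT : TAU) (hW : NW) : FIRST := fun c o => by
  obtain ⟨Φ, S⟩ := (hT c o.1).2.2
  obtain ⟨e0, h0, u⟩ := ex_e0 o.1 (hW c o)
  refine ⟨e0, h0, fun κ θ θ1 m e gc V g hm he h1 h2 G st p hp => ?_⟩
  obtain ⟨W, l, sub⟩ := G.lv
  have H : Fh c Φ κ θ θ1 m e gc V g W := ⟨o, S, hW c o, h1, h2, G, st, l, sub,
    fun p a b r => u p a r gc W l (sub b) e he fun j hj => G.sml p b j (hj.trans hm)⟩
  exact ⟨H.fst hN.2.2.1 (fir hN.2.2.1 hT) hp, H.flt hN.2.2.1 hN.2.2.2.2 (fir hN.2.2.1 hT) hp⟩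

end Vale.Agent.P354XV
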