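import Vale.Agent.P354XU.Defs

/-!
Phase 3, level L1: the scaffold (region, gauge, state) in abstract form, and the exact statements
LOC, GUS, CONT.
-/

open scoped ContDiff
open Set Filter Topology

noncomputable section

namespace Vale.Agent.P354XV

open Vale.Agent.P354n (R4 mink)
open Vale.Agent.P354I (X Dat ee pd)
open Vale.Agent.P354R (Met Vac Pull chr)
open Vale.Agent.P354RC (bs)
open Vale.Agent.P354XE (Tw pt xs eT Bd)
open Vale.Agent.P354XU (Jt lens)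

/-! ### Natural accelerations -/

/-- The jets of order m of a field of bilinear forms. -/
abbrev Jet (m : ℕ) : Type := (k : Fin (m + 1)) → (Fin k → Fin 4) → Fin 4 → Fin 4 → ℝ
def jet (m : ℕ) (g : Tw) (x : R4) : Jet m := fun k α i j =>
  iteratedFDeriv ℝ k (fun z => g z (bs i) (bs j)) x fun l => bs (α l)

/-- The signature is (-,+,+,+) at p. -/
def Sig (g : Tw) (p : R4) : Prop :=
  ∃ L : R4 → R4, IsLinearMap ℝ L ∧ L.Injective ∧ ∀ v w, g p v w = mink (L v) (L w)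

/-- A smooth Lorentzian vacuum metric on the open set D. -/
structure Lv (g : Tw) (D : Set R4) : Prop where
  isOpen : IsOpen D
  met : Met g D
  vac : Vac g D
  sig : ∀ p ∈ D, Sig g p

/-- An acceleration F which depends on a parameter (the point of the chart), on the jet of the
metric and on the velocity. It is defined on U; Mg is a part of U with a margin. -/
structure Nat where
  m : ℕ
  U : Set (R4 × Jet m × R4)
  Mg : Set (R4 × Jet m × R4)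
  F : R4 × Jet m × R4 → R4

/-- F is smooth, and natural under isometries which preserve the orientation. -/
structure Nat.Is (N : Nat) : Prop where
  opn : IsOpen N.U
  sub : N.Mg ⊆ N.U
  cls : ∀ z ∈ closure N.Mg, (Matrix.of (z.2.1 0 Fin.elim0)).det ≠ 0 → z ∈ N.U
  sm : ContDiffOn ℝ ∞ N.F N.U
  nat : ∀ f g' D' g D, Pull f g' D' g D → Lv g D → ∀ x ∈ D',
    0 < LinearMap.det (fderiv ℝ f x : R4 →ₗ[ℝ] R4) → ∀ p w,
    ((p, jet N.m g' x, w) ∈ N.U ↔ (p, jet N.m g (f x), fderiv ℝ f x w) ∈ N.U) ∧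
    ((p, jet N.m g' x, w) ∈ N.Mg ↔ (p, jet N.m g (f x), fderiv ℝ f x w) ∈ N.Mg) ∧
    ((p, jet N.m g' x, w) ∈ N.U →
      fderiv ℝ f x (N.F (p, jet N.m g' x, w)) = N.F (p, jet N.m g (f x), fderiv ℝ f x w))

/-- The gauge condition at x with the parameter p: the covariant derivative of Y along Y is F. -/
def Gq (N : Nat) (p : R4) (g : Tw) (Y : R4 → R4) (x : R4) : Prop :=
  (p, jet N.m g x, Y x) ∈ N.U ∧ ∀ c, g x (fderiv ℝ Y x (Y x)) c + chr g x (Y x) (Y x) c =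
    g x (N.F (p, jet N.m g x, Y x)) c

/-! ### The scaffold -/

/-- The domain O of the chart, the gauge field Y, the time function tau whose levels are the lids,
the function psi which is negative on the collar, and a chart Ps = (tau, y) which straightens Y. -/
structure Sc where
  O : Set R4
  Y : R4 → R4
  tau : R4 → ℝ
  psi : R4 → ℝ
  Ps : R4 → R4

structure Sc.Is (S : Sc) : Prop where
  opn : IsOpen S.O
  smY : ContDiffOn ℝ ∞ S.Y S.O
  smt : ContDiffOn ℝ ∞ S.tau S.O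
  smp : ContDiffOn ℝ ∞ S.psi S.O
  Yt : ∀ p ∈ S.O, 0 < fderiv ℝ S.tau p (S.Y p)
  smP : ContDiffOn ℝ ∞ S.Ps S.O
  inj : InjOn S.Ps S.O
  det : ∀ p ∈ S.O, 0 < LinearMap.det (fderiv ℝ S.Ps p : R4 →ₗ[ℝ] R4)
  fst : ∀ p ∈ S.O, (S.Ps p).1 = S.tau p
  str : ∀ p ∈ S.O, fderiv ℝ S.Ps p (S.Y p) = fderiv ℝ S.tau p (S.Y p) • eT
  Yp : ∀ p ∈ S.O, -1 ≤ S.psi p → S.psi p ≤ 0 → 0 < fderiv ℝ S.psi p (S.Y p)
  cpt : ∀ V, IsCompact {p | p ∈ S.O ∧ S.tau p ≤ V ∧ -1 ≤ S.psi p}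

/-- The collar psi < c, and the region below the lid tau = V together with the collar psi < 0. -/
def Sc.Cl (S : Sc) (c : ℝ) : Set R4 := {p | p ∈ S.O ∧ S.psi p < c}
def Sc.Om (S : Sc) (V : ℝ) : Set R4 := {p | p ∈ S.O ∧ (S.tau p < V ∨ S.psi p < 0)}

/-- The levels of f are spacelike at p. -/
def Spl (g : Tw) (f : R4 → ℝ) (p : R4) : Prop := ∀ v ≠ 0, fderiv ℝ f p v = 0 → 0 < g p v v

/-- The metric on the collar. -/
structure Col (N : Nat) (S : Sc) (gc : Tw) : Prop where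
  lv : Lv gc (S.Cl 1)
  gau : ∀ p ∈ S.Cl 0, Gq N p gc S.Y p
  top : ∀ p ∈ S.O, -1 ≤ S.psi p → S.psi p ≤ 0 → Spl gc S.tau p ∧
    (p, jet N.m gc p, S.Y p) ∈ N.Mg ∧
    ∀ v, gc p v v ≤ 0 → 0 < fderiv ℝ S.tau p v → 0 < fderiv ℝ S.psi p v

/-- The state: a vacuum metric in the gauge below the lid, equal to gc on the collar. -/
structure St (N : Nat) (S : Sc) (gc : Tw) (V : ℝ) (g : Tw) : Prop where
  lv : Lv g (S.Om V)
  gau : ∀ p ∈ S.Om V, Gq N p g S.Y p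
  col : EqOn g gc (S.Cl 0)

/-- Bounds at p, with the constant B: derivatives of order at most k, the levels of f are
spacelike, there is a timelike vector. -/
structure Nice (k : ℕ) (B : ℝ) (g : Tw) (f : R4 → ℝ) (p : R4) : Prop where
  bd : Bd k g p B
  sp : ∀ v, fderiv ℝ f p v = 0 → ‖v‖ ^ 2 ≤ B * g p v v
  tl : ∃ u, ‖u‖ ≤ B ∧ B * g p u u ≤ -1

/-- Uniform bounds below the lid, with any constant. -/
def Bnd (k : ℕ) (N : Nat) (S : Sc) (V : ℝ) (g : Tw) : Prop :=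
  ∃ B, ∀ p ∈ S.O, S.tau p < V → 0 ≤ S.psi p →
    Nice k B g S.tau p ∧ (p, jet N.m g p, S.Y p) ∈ N.Mg

/-- CONT: continuation. -/
def CONT : Prop :=
  ∃ k, ∀ (N : Nat) (S : Sc) gc V g, N.Is → S.Is → Col N S gc → St N S gc V g → Bnd k N S V g →
    ∃ V' > V, ∃ g', St N S gc V' g' ∧ EqOn g' g (S.Om V)

/-! ### Local existence and geometric uniqueness -/

/-- g induces d on the slice t = 0 at y, for the normal with positive time component. -/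
def In0 (g : Tw) (d : Dat) (y : X) : Prop :=
  ∃ n, g (pt 0 y) n n = -1 ∧ 0 < n.1 ∧ ∀ i k, g (pt 0 y) (pt 0 (ee i)) n = 0 ∧
    g (pt 0 y) (pt 0 (ee i)) (pt 0 (ee k)) = d.h y i k ∧
    -chr g (pt 0 y) (pt 0 (ee i)) (pt 0 (ee k)) n = d.K y i k

/-- The constraint equations at y. -/
def CnAt (d : Dat) (y : X) : Prop :=
  d.scal y + d.trK y ^ 2 - d.sqK y = 0 ∧ ∀ j, d.divK j y - pd j d.trK y = 0

/-- Smooth data on X which are flat outside the ball of radius B, with bounds. -/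
structure DB (m : ℕ) (B : ℝ) (d : Dat) : Prop where
  sm : ∀ i j, ContDiff ℝ ∞ (fun y => d.h y i j) ∧ ContDiff ℝ ∞ fun y => d.K y i j
  sy : ∀ y, (d.h y).IsSymm ∧ (d.K y).IsSymm
  fl : ∀ y, B ≤ ‖y‖ → d.h y = 1 ∧ d.K y = 0
  bd : ∀ y i j, Jt m (fun y => d.h y i j) y B ∧ Jt m (fun y => d.K y i j) y B
  pos : ∀ y (v : Fin 3 → ℝ), ∑ i, v i ^ 2 ≤ B * ∑ i, ∑ j, d.h y i j * v i * v j

/-- The slab |t| < δ, and its part over U for the speed c. -/
def slab (δ : ℝ) : Set R4 := {p | |p.1| < δ}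
def ovr (δ c : ℝ) (U : Set X) : Set R4 :=
  {p | |p.1| < δ ∧ Metric.closedBall (xs p) (c * |p.1|) ⊆ U}

/-- LOC: local existence with bounds, Lipschitz in the data. -/
def LOC : Prop :=
  ∀ k : ℕ, ∃ m : ℕ, ∀ B : ℝ, ∃ δ > 0, ∃ c ≥ 0, ∃ C : ℝ, ∃ G : Dat → Tw, ∀ d, DB m B d →
    Met (G d) (slab δ) ∧ (∀ p ∈ slab δ, Sig (G d) p ∧ Nice k C (G d) Prod.fst p) ∧
    (∀ y, In0 (G d) d y) ∧ (∀ U, IsOpen U → (∀ y ∈ U, CnAt d y) → Vac (G d) (ovr δ c U)) ∧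
    ∀ d' ε, DB m B d' → (∀ y i j, Jt m (fun y => d'.h y i j - d.h y i j) y ε ∧
      Jt m (fun y => d'.K y i j - d.K y i j) y ε) → ∀ p ∈ slab δ, Bd k (G d' - G d) p (C * ε)

/-- The closed lens. -/
def clens {ι : Type} (φ : ι → R4 → ℝ) (T : ℝ) : Set R4 := {p | p.1 ∈ Icc 0 T ∧ ∀ i, φ i p ≤ 0}

/-- GUS: geometric uniqueness with sharp speed and with a size. -/
def GUS : Prop :=
  ∀ B : ℝ, ∃ K > 0, ∀ (ι : Type) [Fintype ι] (φ : ι → R4 → ℝ) (T : ℝ) g D g' D' d,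
    Lv g D → Lv g' D' → 0 < T → K * T ≤ 1 → (∀ i, ContDiff ℝ 1 (φ i)) →
    IsCompact (clens φ T) → clens φ T ⊆ D → P354XU.Star (clens φ T) →
    (∀ p ∈ clens φ T, Nice 1 B g Prod.fst p ∧ (∀ i, 0 < fderiv ℝ (φ i) p eT ∧
        ∀ v, g p v v ≤ 0 → 0 < v.1 → 0 < fderiv ℝ (φ i) p v) ∧
      ∀ q, dist q (0, p.2) ≤ K * T → q ∈ D' ∧ Nice 1 B g' Prod.fst q) →
    (∀ y, pt 0 y ∈ clens φ T → In0 g d y ∧ In0 g' d y) →
    ∃ b O, IsOpen O ∧ lens φ T ⊆ O ∧ O ⊆ D ∧ ContDiffOn ℝ ∞ b O ∧ MapsTo b O D' ∧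
      (∀ p ∈ O, p.1 = 0 → b p = p) ∧ ∀ p ∈ lens φ T, dist (b p) (0, p.2) ≤ K * p.1 ∧
        ‖fderiv ℝ b p‖ ≤ K ∧ 0 < LinearMap.det (fderiv ℝ b p : R4 →ₗ[ℝ] R4) ∧
        (p.1 = 0 → 0 < (fderiv ℝ b p eT).1) ∧
        ∀ v w, g p v w = g' (b p) (fderiv ℝ b p v) (fderiv ℝ b p w)

end Vale.Agent.P354XV
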