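import Vale.Agent.P354XV.Cont
import Vale.Agent.P354YQ.Ex

/-!
Algebra and calculus for the continuation step.
-/

set_option maxSynthPendingDepth 3

open scoped ContDiff
open Set Filter Topology

noncomputable section

namespace Vale.Agent.P354XV

open Vale.Agent.P354n (R4)
open Vale.Agent.P354I (X)
open Vale.Agent.P354R (Met)
open Vale.Agent.P354RC (B2 Rp bs cv sum_bs)
open Vale.Agent.P354XE (Tw pt xs eT Bd)

/-- The bounds of order zero for a bilinear form. -/
structure N0 (B : ℝ) (h : B2) : Prop where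
  sy : ∀ v w, h v w = h w v
  bd : ∀ v w, |h v w| ≤ B * (‖v‖ * ‖w‖)
  sp : ∀ v : R4, v.1 = 0 → ‖v‖ ^ 2 ≤ B * h v v
  tl : ∃ u, ‖u‖ ≤ B ∧ B * h u u ≤ -1

variable {g : Tw} {h : R4 → B2} {D : Set R4} {p : R4} {B : ℝ} {k : ℕ} {H : B2}

theorem Nice.n0 (n : Nice k B g Prod.fst p) (r : Rp g h D) (hp : p ∈ D) : N0 B (h p) := by
  refine ⟨r.symm p hp, fun v w => ?_, fun v hv => ?_, ?_⟩
  · simpa [r.eq p hp] using n.bd 0 k.zero_le v w
  · rw [← r.eq p hp]; exact n.sp v (by rw [fderiv_fst]; exact hv)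
  · simpa only [r.eq p hp] using n.tl

theorem N0.nn (n : N0 B H) : 0 ≤ B := let ⟨_, a, _⟩ := n.tl; (norm_nonneg _).trans a

theorem norm_eT : ‖eT‖ = 1 := by simp [eT]

/-- Causal vectors are controlled by their time component. -/
theorem N0.cone (n : N0 B H) {v : R4} (hv : H v v ≤ 0) : ‖v‖ ≤ (1 + B + 2 * B ^ 2) * |v.1| := by
  have b := n.nn
  obtain ⟨t, e, he, ht, rfl⟩ : ∃ (t : ℝ) (e : R4), e.1 = 0 ∧ v.1 = t ∧ v = t • eT + e :=
    ⟨v.1, (0, v.2), rfl, rfl, by simp [eT]⟩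
  rw [ht]
  have h1 := n.sp e he
  have h2 := (abs_le.1 (n.bd eT eT)).1
  have h3 : |t * H eT e| ≤ |t| * (B * ‖e‖) := by
    rw [abs_mul]; exact mul_le_mul_of_nonneg_left (by simpa [norm_eT] using n.bd eT e) (abs_nonneg _)
  simp only [map_add, map_smul, add_apply, smul_apply, smul_eq_mul, n.sy e eT] at hv
  rw [norm_eT] at h2
  have h4 : ‖e‖ ^ 2 ≤ B ^ 2 * |t| ^ 2 + 2 * B ^ 2 * |t| * ‖e‖ := by
    have a := (abs_le.1 h3).1
    have c : H e e ≤ B * |t| ^ 2 + 2 * (|t| * (B * ‖e‖)) := by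
      rw [sq_abs]; nlinarith [mul_le_mul_of_nonneg_left h2 (sq_nonneg t)]
    nlinarith [mul_le_mul_of_nonneg_left c b]
  have h5 : ‖e‖ ≤ (B + 2 * B ^ 2) * |t| := by
    by_contra hn
    have a := not_le.1 hn
    have c : 0 ≤ B * |t| := by positivity
    have d : 0 ≤ 2 * B ^ 2 * |t| := by positivity
    nlinarith [mul_lt_mul_of_pos_right a (lt_of_le_of_lt (by positivity) a)]
  refine (norm_add_le _ _).trans ?_
  rw [norm_smul, norm_eT, Real.norm_eq_abs]
  linarith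

/-- Quantitative nondegeneracy. -/
theorem N0.nd (n : N0 B H) (a : R4) : ‖a‖ ≤ 2 * B * (1 + B) * (1 + 3 * B) * ‖H a‖ := by
  have b := n.nn
  obtain ⟨u, u1, u2⟩ := n.tl
  have u0 : u.1 ≠ 0 := fun e => by nlinarith [n.sp u e, sq_nonneg ‖u‖]
  obtain ⟨l, v, hv, ha⟩ : ∃ (l : ℝ) (v : R4), v.1 = 0 ∧ v = a - l • u :=
    ⟨a.1 / u.1, _, by simp [u0], rfl⟩
  have h1 := n.sp v hv
  have h2 : H v v = H a a - 2 * l * H a u + l ^ 2 * H u u := by
    simp only [ha, map_sub, map_smul, sub_apply, smul_apply, smul_eq_mul, n.sy u a]; ring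
  have h3 : ‖a‖ ≤ ‖v‖ + |l| * B := by
    rw [show a = v + l • u by rw [ha]; abel]
    refine (norm_add_le _ _).trans ?_
    rw [norm_smul, Real.norm_eq_abs]
    exact add_le_add le_rfl (mul_le_mul_of_nonneg_left u1 (abs_nonneg _))
  have h4 : H a a ≤ ‖H a‖ * (‖v‖ + |l| * B) :=
    (le_abs_self _).trans (((H a).le_opNorm a).trans (mul_le_mul_of_nonneg_left h3 (norm_nonneg _)))
  have h5 : -(l * H a u) ≤ |l| * (‖H a‖ * B) := by
    refine (neg_le_abs _).trans ?_
    rw [abs_mul]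
    exact mul_le_mul_of_nonneg_left (((H a).le_opNorm u).trans
      (mul_le_mul_of_nonneg_left u1 (norm_nonneg _))) (abs_nonneg _)
  have h6 : ‖v‖ ^ 2 + |l| ^ 2 ≤ B * ‖H a‖ * (‖v‖ + 3 * |l| * B) := by
    rw [sq_abs]
    nlinarith [mul_le_mul_of_nonneg_left u2 (sq_nonneg l), mul_le_mul_of_nonneg_left h4 b,
      mul_le_mul_of_nonneg_left h5 b]
  generalize ‖H a‖ = m, ‖v‖ = x, |l| = y, norm_nonneg (H a) = m0, norm_nonneg v = x0,
    abs_nonneg l = y0 at *
  have h7 : x + y ≤ 2 * B * m * (1 + 3 * B) := by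
    by_contra hn
    have c := not_le.1 hn
    have d : 0 ≤ B * m := by positivity
    have e : 0 < x + y := lt_of_le_of_lt (by positivity) c
    nlinarith [mul_lt_mul_of_pos_right c e, sq_nonneg (x - y), mul_nonneg d (mul_nonneg b x0),
      mul_nonneg d y0]
  nlinarith [mul_le_mul_of_nonneg_left h7 (show 0 ≤ 1 + B by linarith), mul_nonneg b x0]

/-- Two isometries which fix the slice and respect the time orientation agree. -/
theorem iso_eq {G : R4 → R4 → ℝ} (sy : ∀ v w, H v w = H w v) (nd : ∀ a, (∀ b, H a b = 0) → a = 0)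
    {A A' : R4 →L[ℝ] R4} (e : ∀ v w, G v w = H (A v) (A w)) (e' : ∀ v w, G v w = H (A' v) (A' w))
    (s : ∀ v : R4, v.1 = 0 → A v = v) (s' : ∀ v : R4, v.1 = 0 → A' v = v) (t : 0 < (A eT).1)
    (t' : 0 < (A' eT).1) : A eT = A' eT := by
  refine sub_eq_zero.1 (nd _ fun v => ?_)
  have h0 : (A eT + A' eT).1 ≠ 0 := (add_pos t t').ne'
  obtain ⟨l, w, hw, rfl⟩ : ∃ (l : ℝ) (w : R4), w.1 = 0 ∧ v = l • (A eT + A' eT) + w :=
    ⟨v.1 / (A eT + A' eT).1, v - (v.1 / (A eT + A' eT).1) • (A eT + A' eT), by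
      rw [Prod.fst_sub, Prod.smul_fst, smul_eq_mul, div_mul_cancel₀ _ h0, sub_self], by abel⟩
  have h1 := (e eT w).symm.trans (e' eT w)
  have h2 := (e eT eT).symm.trans (e' eT eT)
  rw [s w hw, s' w hw] at h1
  simp only [map_sub, map_add, map_smul, sub_apply, smul_eq_mul, h1, h2, sy (A' eT) (A eT)]
  ring

theorem det_jet {m : ℕ} (r : Rp g h D) (hp : p ∈ D) :
    (Matrix.of (jet m g p 0 Fin.elim0)).det ≠ 0 := fun e => by
  obtain ⟨c, c0, hc⟩ := Matrix.exists_vecMul_eq_zero_iff.2 e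
  have k : ∀ j, h p (∑ i, c i • bs i) (bs j) = 0 := fun j => by
    have := congrFun hc j
    have z : ∀ i, jet m g p 0 Fin.elim0 i j = h p (bs i) (bs j) := fun i =>
      (iteratedFDeriv_zero_apply _).trans (r.eq p hp _ _)
    simp only [Matrix.vecMul, dotProduct, Matrix.of_apply, z, Pi.zero_apply] at this
    simpa using this
  have z := r.nd p hp _ fun b => by
    rw [← sum_bs b, map_sum]
    exact Finset.sum_eq_zero fun j _ => by rw [map_smul, k, smul_zero]
  refine c0 (funext fun j => ?_)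
  simpa [P354RC.cv_bs] using congrArg (cv j) z

theorem gm_cd {E : Type} [NormedAddCommGroup E] [NormedSpace ℝ E] {c u v : E → R4} {x : E}
    (r : Rp g h D) (hy : c x ∈ D) (hc : ContDiffAt ℝ ∞ c x) (hu : ContDiffAt ℝ ∞ u x)
    (hv : ContDiffAt ℝ ∞ v x) : ContDiffAt ℝ ∞ (fun z => P354RC.Gm h (c z) (u z) (v z)) x := by
  have k0 := P354RC.at_fd (r.at hy)
  have k := k0.comp x hc
  have k1 := (P354RC.at_flip k0).comp x hc
  have fl : ∀ {F : E → R4 →L[ℝ] R4 →L[ℝ] ℝ}, ContDiffAt ℝ ∞ F x →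
      ContDiffAt ℝ ∞ (fun z => (F z).flip) x := fun hF =>
    (ContinuousLinearMap.flipₗᵢ ℝ R4 R4 ℝ).contDiff.contDiffAt.comp x hF
  exact ((r.inv_cd hy).comp x hc).clm_apply (((((k.clm_apply hu).clm_apply hv).add
    ((k.clm_apply hv).clm_apply hu)).sub ((fl (k1.clm_apply hu)).clm_apply hv)).const_smul _)

/-- A function which increases where it is negative stays below its final value. -/
theorem le_end {f f' : ℝ → ℝ} {t c : ℝ} (hf : ∀ s ∈ Icc 0 t, HasDerivAt f (f' s) s)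
    (h : ∀ s ∈ Icc 0 t, f s = c → 0 < f' s) (e : f t ≤ c) : ∀ s ∈ Icc 0 t, f s ≤ c := fun s hs => by
  have m : ∀ x ∈ Icc 0 t, t - x ∈ Icc 0 t := fun x hx => ⟨sub_nonneg.2 hx.2, sub_le_self _ hx.1⟩
  have d : ∀ x ∈ Icc 0 t, HasDerivAt (fun x => f (t - x)) (-f' (t - x)) x := fun x hx =>
    (hf _ (m x hx)).comp_const_sub t x
  have := image_le_of_deriv_right_lt_deriv_boundary' (f := fun x => f (t - x)) (a := 0) (b := t)
    (B := fun _ => c) (B' := fun _ => 0) (fun x hx => (d x hx).continuousAt.continuousWithinAt)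
    (fun x hx => (d x (Ico_subset_Icc_self hx)).hasDerivWithinAt) (by simpa using e)
    continuousOn_const (fun x _ => (hasDerivAt_const x c).hasDerivWithinAt)
    (fun x hx k => neg_lt_zero.2 (h _ (m x (Ico_subset_Icc_self hx)) k)) (m s hs)
  simpa using this

/-- Solutions on a half open interval are given by the flow. -/
theorem flow_eq {E : Type} [NormedAddCommGroup E] [NormedSpace ℝ E] {u : R4 × E → E}
    {Fl : ℝ × R4 × E → E} (hu : ContDiff ℝ ∞ u) (hF : Continuous Fl) (h0 : ∀ p, Fl (0, p) = p.2)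
    (hd : ∀ t w x, HasDerivAt (fun t => Fl (t, w, x)) (u (w + t • eT, Fl (t, w, x))) t)
    {γ : ℝ → E} {w : R4} {t T : ℝ} (ht : t ∈ Ioo 0 T) (hc : ContinuousAt γ 0)
    (hγ : ∀ s ∈ Ioo 0 T, HasDerivAt γ (u (w + s • eT, γ s)) s) : γ t = Fl (t, w, γ 0) := by
  have k : ∀ s ∈ Ioo 0 t, γ t = Fl (t - s, w + s • eT, γ s) := fun s hs => by
    have sub : ∀ r ∈ Icc 0 (t - s), s + r ∈ Ioo 0 T := fun r hr =>
      ⟨by linarith [hr.1, hs.1], by linarith [hr.2, ht.2]⟩
    have := P354YQ.uniq (w := fun q => u (w + s • eT + q.1 • eT, q.2)) (γ := fun r => γ (s + r))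
      (γ' := fun r => Fl (r, w + s • eT, γ s)) isPreconnected_Icc
      (left_mem_Icc.2 (sub_nonneg.2 hs.2.le))
      (fun r _ => (hu.contDiffAt.of_le (by simp)).comp _ (by fun_prop))
      (fun r hr => ((continuous_const_add s).continuousAt.eventually
        (isOpen_Ioo.mem_nhds (sub r hr))).mono fun r hr => by
          rw [add_assoc, ← add_smul]
          exact (hγ _ hr).comp_const_add s r)
      (fun r _ => .of_forall fun r => hd r _ _) (by simp [h0]) (t - s)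
      (right_mem_Icc.2 (sub_nonneg.2 hs.2.le))
    simpa using this.eq_of_nhds
  have c : ContinuousAt (fun s => Fl (t - s, w + s • eT, γ s)) 0 :=
    hF.continuousAt.comp (by fun_prop)
  have := tendsto_nhds_unique (tendsto_const_nhds.congr' (mem_of_superset (Ioo_mem_nhdsGT ht.1) k))
    (c.tendsto.mono_left nhdsWithin_le_nhds)
  simpa using this

theorem ln_fd {E : Type} [NormedAddCommGroup E] [NormedSpace ℝ E] {Ψ : R4 → E} {z : R4} {s : ℝ}
    (k : DifferentiableAt ℝ Ψ (s, z.2)) :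
    HasDerivAt (fun s => Ψ (s, z.2)) (fderiv ℝ Ψ (s, z.2) eT) s :=
  k.hasFDerivAt.comp_hasDerivAt _ ((hasDerivAt_id _).prodMk (hasDerivAt_const _ _))

theorem fd_slice {b : R4 → R4} {O : Set R4} (hO : IsOpen O) (hp : p ∈ O) (h0 : p.1 = 0)
    (hb : DifferentiableAt ℝ b p) (e : ∀ q ∈ O, q.1 = 0 → b q = q) (v : R4) (hv : v.1 = 0) :
    fderiv ℝ b p v = v := by
  have l : HasDerivAt (fun t : ℝ => p + t • v) v 0 := by
    simpa using ((hasDerivAt_id (0 : ℝ)).smul_const v).const_add p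
  have k := hb.hasFDerivAt.comp_hasDerivAt_of_eq 0 l (by simp)
  refine k.unique (l.congr_of_eventuallyEq ?_)
  filter_upwards [l.continuousAt.eventually (hO.mem_nhds (by simpa using hp))] with t ht
  exact e _ ht (by simp [h0, hv])

theorem tube {Q : Set R4} (hQ : IsCompact Q) {a : ℝ} (h : ∀ p ∈ Q, a < p.1) :
    ∃ c > a, ∀ p ∈ Q, c ≤ p.1 := by
  rcases Q.eq_empty_or_nonempty with rfl | e
  · exact ⟨a + 1, by linarith, fun _ k => k.elim⟩
  · obtain ⟨p, hp, k⟩ := hQ.exists_isMinOn e continuous_fst.continuousOn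
    exact ⟨p.1, h p hp, fun q hq => k hq⟩

/-- A function which is smooth near a compact set agrees there with a smooth function. -/
theorem ex_ext {O K : Set R4} (hO : IsOpen O) (hK : IsCompact K) (s : K ⊆ O) {f : R4 → ℝ}
    (hf : ContDiffOn ℝ ∞ f O) : ∃ F, ContDiff ℝ ∞ F ∧ ∀ p ∈ K, F =ᶠ[𝓝 p] f := by
  obtain ⟨L, hL, h1, h2⟩ := exists_compact_between hK hO s
  obtain ⟨χ, a, b, -⟩ := exists_contMDiffMap_one_nhds_of_subset_interior (n := ⊤)
    (modelWithCornersSelf ℝ R4) hK.isClosed h1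
  refine ⟨fun p => χ p * f p, contDiff_iff_contDiffAt.2 fun p => ?_, fun p hp =>
    (a.filter_mono (nhds_le_nhdsSet hp)).mono fun q k => by simp only [k, one_mul]⟩
  by_cases m : p ∈ L
  · exact χ.contMDiff.contDiff.contDiffAt.mul (hf.contDiffAt (hO.mem_nhds (h2 m)))
  · exact contDiffAt_const.congr_of_eventuallyEq
      ((hL.isClosed.isOpen_compl.eventually_mem m).mono fun q k => by simp only [b q k, zero_mul]; rfl)

end Vale.Agent.P354XV
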