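import Vale.Agent.P354XV.Loc

/-!
The pieces of CONT: the data on a lid, and the continuation in the straightening chart.
-/

open scoped ContDiff
open Set Filter Topology

noncomputable section

namespace Vale.Agent.P354XV

open Vale.Agent.P354n (R4)
open Vale.Agent.P354I (X Dat)
open Vale.Agent.P354XE (Tw pt xs eT Bd)

/-- DATA: the data induced on t = 0, cut off outside U. -/
def DATA : Prop :=
  ∀ (m : ℕ) (B : ℝ) (K U : Set X), IsCompact K → IsOpen U → closure U ⊆ interior K →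
    ∃ B', ∀ g D, Lv g D → (∀ y ∈ K, pt 0 y ∈ D ∧ Nice (m + 1) B g Prod.fst (pt 0 y)) →
      ∃ d, DB m B' d ∧ ∀ y ∈ U, In0 g d y ∧ CnAt d y

/-- The scaffold in the straightening chart: tau is the first coordinate, Y = f eT, and pi p is
the point of the original chart. -/
structure Str (O : Set R4) (f psi : R4 → ℝ) (pi : R4 → R4) : Prop where
  opn : IsOpen O
  smf : ContDiffOn ℝ ∞ f O
  smp : ContDiffOn ℝ ∞ psi O
  smq : ContDiffOn ℝ ∞ pi O
  pos : ∀ p ∈ O, 0 < f p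
  Yp : ∀ p ∈ O, -1 ≤ psi p → psi p ≤ 0 → 0 < fderiv ℝ psi p eT
  cpt : ∀ V, IsCompact {p | p ∈ O ∧ p.1 ≤ V ∧ -1 ≤ psi p}

/-- The region below the lid. -/
def Om0 (O : Set R4) (psi : R4 → ℝ) (V : ℝ) : Set R4 := {p | p ∈ O ∧ (p.1 < V ∨ psi p < 0)}

/-- CONT in the straightening chart. -/
def CONT0 (k : ℕ) : Prop :=
  ∀ (N : Nat) O f psi pi gc V g, N.Is → Str O f psi pi → Lv gc {p | p ∈ O ∧ psi p < 1} →
    (∀ p ∈ O, -1 ≤ psi p → psi p ≤ 0 → Spl gc Prod.fst p ∧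
      (pi p, jet N.m gc p, f p • eT) ∈ N.Mg ∧
      ∀ v, gc p v v ≤ 0 → 0 < v.1 → 0 < fderiv ℝ psi p v) →
    Lv g (Om0 O psi V) → (∀ p ∈ Om0 O psi V, Gq N (pi p) g (fun x => f x • eT) p) →
    EqOn g gc {p | p ∈ O ∧ psi p < 0} →
    (∃ B, ∀ p ∈ O, p.1 < V → 0 ≤ psi p →
      Nice k B g Prod.fst p ∧ (pi p, jet N.m g p, f p • eT) ∈ N.Mg) →
    ∃ V' > V, ∃ g', Lv g' (Om0 O psi V') ∧
      (∀ p ∈ Om0 O psi V', Gq N (pi p) g' (fun x => f x • eT) p) ∧ EqOn g' g (Om0 O psi V)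

/-- TRANS: passage to the straightening chart. -/
def TRANS : Prop := ∀ k, CONT0 k → CONT

end Vale.Agent.P354XV
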