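import Vale.Agent.P354XV.C3

/-!
The continuation in the straightening chart.
-/

set_option maxSynthPendingDepth 3

open scoped ContDiff
open Set Filter Topology

noncomputable section

namespace Vale.Agent.P354XV

open Vale.Agent.P354n (R4)
open Vale.Agent.P354I (X Dat)
open Vale.Agent.P354RC (cv)
open Vale.Agent.P354XE (Tw pt xs eT Bd)
open Vale.Agent.P354UG (nice_mono nice_cpt lv_shift jet_shift gq_shift)

/-- The space part as a linear map. -/
def xsL : R4 →L[ℝ] X :=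
  (EuclideanSpace.equiv (Fin 3) ℝ).symm.toContinuousLinearMap.comp (.pi ![cv 1, cv 2, cv 3])

theorem xsL_ap (p : R4) : xsL p = xs p := by
  ext i; fin_cases i <;> rfl

theorem xs_pt (t : ℝ) (y : X) : xs (pt t y) = y := by
  ext i; fin_cases i <;> rfl

theorem xs_cont : Continuous xs := (funext xsL_ap : ⇑xsL = xs) ▸ xsL.continuous

variable {g g' : Tw} {p : R4} {k : ℕ} {B : ℝ} {f : R4 → ℝ}

theorem Nice.pos (h : Nice k B g f p) : 0 < B := by
  obtain ⟨u, a, b⟩ := h.tl
  refine lt_of_le_of_ne ((norm_nonneg _).trans a) fun e => ?_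
  rw [← e] at b
  linarith

theorem Nice.le {k' : ℕ} {B' : ℝ} (h : Nice k B g f p) (e : k' ≤ k) (e' : B ≤ B') :
    Nice k' B' g f p := nice_mono ⟨fun j hj => h.bd j (hj.trans e), h.sp, h.tl⟩ h.pos e'

theorem Nice.congr (h : Nice k B g f p) (e : g' =ᶠ[𝓝 p] g) : Nice k B g' f p := by
  refine ⟨fun j hj v w => ?_, e.eq_of_nhds ▸ h.sp, e.eq_of_nhds ▸ h.tl⟩
  have : (fun x => g' x v w) =ᶠ[𝓝 p] fun x => g x v w := e.mono fun x k => by simp only [k]
  rw [(this.iteratedFDeriv ℝ j).eq_of_nhds]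
  exact h.bd j hj v w

theorem Nice.shift {a : R4} (h : Nice k B g Prod.fst (p + a)) :
    Nice k B (fun x => g (x + a)) Prod.fst p := by
  refine ⟨fun j hj v w => ?_, fun v hv => h.sp v ?_, h.tl⟩
  · rw [iteratedFDeriv_comp_add_right (f := fun z => g z v w)]
    exact h.bd j hj v w
  · rw [fderiv_fst] at hv ⊢; exact hv

theorem small (a : ℝ) {b : ℝ} (h : 0 < b) : ∀ᶠ η in 𝓝[>] (0 : ℝ), a * η < b :=
  nhdsWithin_le_nhds ((continuous_const.mul continuous_id).continuousAt.eventually_lt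
    continuousAt_const (by simpa using h))

theorem ovr_open (δ : ℝ) {c : ℝ} (hc : 0 ≤ c) {U : Set X} (hU : IsOpen U) :
    IsOpen (ovr δ c U) := by
  refine isOpen_iff_mem_nhds.2 fun p hp => ?_
  obtain ⟨ρ, r0, hr⟩ := (isCompact_closedBall _ _).exists_cthickening_subset_open hU hp.2
  have c1 : Continuous fun q : R4 => dist (xs q) (xs p) + c * |q.1| := by
    have := xs_cont
    fun_prop
  filter_upwards [(continuous_fst.abs.continuousAt (x := p)).eventually_lt_const hp.1,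
    (c1.continuousAt (x := p)).eventually_lt_const
      (show _ < ρ + c * |p.1| by simpa using r0)] with q q1 q2
  refine ⟨q1, fun y hy => hr ?_⟩
  rw [cthickening_closedBall r0.le (by positivity), Metric.mem_closedBall]
  linarith [dist_triangle y (xs q) (xs p), Metric.mem_closedBall.1 hy]

theorem cont0 (hL : LOC) (hG : GUS) (hD : DATA) : ∃ k, CONT0 k := by
  obtain ⟨m, hL⟩ := hL 1
  refine ⟨m + 1, fun N O f ψ π gc V g hN hS lc top lg gau col ⟨B, hB⟩ => ?_⟩
  have cψ := hS.smp.continuousOn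
  have cp : ∀ {Q : Set R4} {S : Set ℝ}, IsCompact Q → Q ⊆ O → IsClosed S →
      IsCompact (Q ∩ ψ ⁻¹' S) := fun q s c => q.of_isClosed_subset
    ((cψ.mono s).preimage_isClosed_of_isClosed q.isClosed c) inter_subset_left
  have cQ := hS.cpt (V + 1)
  have cP := cp cQ (fun _ h => h.1) (isClosed_Ici (a := 0))
  have ptc : Continuous (pt V) := by unfold pt; fun_prop
  have oψ : IsOpen (O ∩ ψ ⁻¹' Ioi (-1)) := cψ.isOpen_inter_preimage hS.opn isOpen_Ioi
  have cA := (cP.inter_right (isClosed_eq continuous_fst (continuous_const (y := V)))).image xs_cont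
  obtain ⟨K, cK, AK, KA⟩ := exists_compact_between cA (oψ.preimage ptc) (by
    rintro _ ⟨p, hp, rfl⟩
    rw [mem_preimage, ← show p.1 = V from hp.2]
    exact ⟨hp.1.1.1, lt_of_lt_of_le (by norm_num) (show (0 : ℝ) ≤ ψ p from hp.1.2)⟩)
  obtain ⟨K1, cK1, AK1, K1K⟩ := exists_compact_between cA isOpen_interior AK
  obtain ⟨K2, cK2, AK2, K2U⟩ := exists_compact_between cA isOpen_interior AK1
  obtain ⟨χ, χ1, χ0, -⟩ := exists_contMDiffMap_one_nhds_of_subset_interior (n := ⊤)
    (modelWithCornersSelf ℝ X) cA.isClosed AK2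
  have sχ : ContDiff ℝ ∞ χ := χ.contMDiff.contDiff
  obtain ⟨E, oE, AE, χE⟩ := eventually_nhdsSet_iff_exists.1 χ1
  obtain ⟨L, hLχ⟩ := ((HasCompactSupport.intro cK2 χ0).fderiv ℝ).exists_bound_of_continuous
    (sχ.continuous_fderiv (by simp))
  obtain ⟨ρ, ρ0, hρ⟩ := cK2.exists_cthickening_subset_open isOpen_interior K2U
  obtain ⟨ε, ε0, hε⟩ := (cK.image ptc).exists_cthickening_subset_open oψ (image_subset_iff.2 KA)
  have nr : ∀ p : R4, xs p ∈ K → |p.1 - V| ≤ ε → p ∈ O ∧ -1 < ψ p := fun p a b =>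
    hε (Metric.mem_cthickening_of_dist_le p (pt V (xs p)) ε _ ⟨_, a, rfl⟩ (by
      rw [Prod.dist_eq, show (pt V (xs p)).2 = p.2 from rfl, dist_self]
      exact max_le b ε0.le))
  obtain ⟨B1, -, δ1, δ10, hB1⟩ := nice_cpt (f := Prod.fst) (m + 1) lc
    (cp cQ (fun _ h => h.1) (isClosed_Iic (a := 0))) fun p hp =>
      ⟨⟨hp.1.1, lt_of_le_of_lt hp.2 one_pos⟩, contDiffAt_fst, (top p hp.1.1 hp.1.2.2 hp.2).1⟩
  have oC : IsOpen {p | p ∈ O ∧ ψ p < 0} := cψ.isOpen_inter_preimage hS.opn isOpen_Iio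
  have nice : ∀ p ∈ O, -1 ≤ ψ p → p.1 ≤ V + 1 → (p.1 < V ∨ ψ p < 0) →
      Nice (m + 1) (max B B1) g Prod.fst p ∧ (π p, jet N.m g p, f p • eT) ∈ N.Mg :=
    fun p a b c e => by
      rcases lt_or_ge (ψ p) 0 with n | n
      · have ev : g =ᶠ[𝓝 p] gc := mem_of_superset (oC.mem_nhds ⟨a, n⟩) col
        rw [jet_congr _ ev]
        exact ⟨((hB1 p ⟨⟨a, c, b⟩, n.le⟩ p (by simpa using δ10.le)).2.congr ev).le le_rfl
          (le_max_right _ _), (top p a b n.le).2.1⟩
      · have := hB p a (e.resolve_right (not_lt.2 n)) n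
        exact ⟨this.1.le le_rfl (le_max_left _ _), this.2⟩
  obtain ⟨B', hD⟩ := hD m (max B B1) K (interior K1) cK isOpen_interior
    ((closure_minimal interior_subset cK1.isClosed).trans K1K)
  obtain ⟨δ, δ0, c, c0, C, G, hL⟩ := hL B'
  obtain ⟨K0, k0, hG⟩ := hG (max (max B B1) C)
  obtain ⟨η, ⟨⟨⟨⟨⟨η1, η2⟩, η3⟩, η4⟩, η5⟩, η6⟩, η0⟩ := (((((((small 1 ε0).and (small 1 one_pos)).and
    (small (K0 * 2) one_pos)).and (small (K0 * 2) δ0)).and (small ((‖xsL‖ + c) * K0 * 2) ρ0)).and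
    (small ((1 + L * ‖xsL‖ * (1 + max (max B B1) C + 2 * max (max B B1) C ^ 2)) * 2)
      one_half_pos)).and self_mem_nhdsWithin).exists
  replace η0 : 0 < η := η0
  let a : R4 := (V - η) • eT
  have a1 : ∀ p : R4, (p + a).1 = p.1 + (V - η) := fun p => by simp [a, eT]
  have a2 : ∀ p : R4, xs (p + a) = xs p := fun p => by simp [a, eT, xs]
  have sa : ContDiff ℝ ∞ fun x : R4 => x + a := contDiff_id.add contDiff_const
  have nr' : ∀ p : R4, xs p ∈ K → p.1 ∈ Icc 0 (2 * η) → p + a ∈ O ∧ -1 < ψ (p + a) :=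
    fun p u v => nr _ ((a2 p).symm ▸ u) (by rw [a1, abs_le]; constructor <;> linarith [v.1, v.2])
  obtain ⟨d, hd, id⟩ := hD _ _ (lv_shift lg a) fun y hy => by
    obtain ⟨u, v⟩ := nr' (pt 0 y) ((xs_pt 0 y).symm ▸ hy) ⟨le_rfl, (mul_pos two_pos η0).le⟩
    have e : (pt 0 y + a).1 < V := by rw [a1]; simpa [pt] using η0
    exact ⟨⟨u, Or.inl e⟩, (nice _ u v.le (by linarith) (Or.inl e)).1.shift⟩
  obtain ⟨m2, n2, i2, v2, -⟩ := hL d hd
  have o2 := ovr_open δ c0 (isOpen_interior (s := K1))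
  have inK : ∀ y, 1 / 2 ≤ χ y → y ∈ K2 := fun y h => by
    by_contra n
    rw [χ0 y n] at h
    linarith
  have K2K : K2 ⊆ K := K2U.trans (interior_subset.trans (K1K.trans interior_subset))
  have sβ : ContDiff ℝ ∞ fun p => χ (xsL p) := sχ.comp xsL.contDiff
  have H : Stp N {x | x + a ∈ O} {x | x + a ∈ Om0 O ψ V} (ovr δ c (interior K1))
      (fun x => g (x + a)) (G d) d (fun x => f (x + a)) (fun x => ψ (x + a)) (fun p => χ (xsL p))
      (fun x => π (x + a)) (max (max B B1) C) K0 (L * ‖xsL‖) η := by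
    refine ⟨hG, hN, hS.opn.preimage sa.continuous, hS.smf.comp sa.contDiffOn fun _ h => h,
      hS.smp.comp sa.contDiffOn fun _ h => h, hS.smq.comp sa.contDiffOn fun _ h => h,
      fun _ h => hS.pos _ h, lv_shift lg a, ⟨o2, met_mono m2 fun _ h => h.1,
        v2 _ isOpen_interior fun y hy => (id y hy).2, fun p h => (n2 p h.1).1⟩, sβ,
      fun _ _ => by simp only [xsL_ap]; rfl, fun p => ?_, k0.le, η0, by linarith, by linarith,
      ((isCompact_Icc.prod cK2).image (f := fun q : ℝ × X => pt q.1 q.2) (by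
        unfold pt; fun_prop)).of_isClosed_subset ((isClosed_Icc.preimage continuous_fst).inter
          (isClosed_le continuous_const sβ.continuous)) fun p hp =>
            ⟨(p.1, xs p), ⟨hp.1, xsL_ap p ▸ inK _ hp.2⟩, rfl⟩, fun p p1 p2 => ?_, fun y hy => ?_⟩
    · rw [show fderiv ℝ (fun p => χ (xsL p)) p = _ from ((sχ.differentiable (by simp)
        _).hasFDerivAt.comp p xsL.hasFDerivAt).fderiv]
      exact (ContinuousLinearMap.opNorm_comp_le _ _).trans
        (mul_le_mul_of_nonneg_right (hLχ _) (norm_nonneg _))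
    · have pK := xsL_ap p ▸ inK _ p2
      obtain ⟨u, v⟩ := nr' p (K2K pK) p1
      have e1 : (p + a).1 ≤ V + 1 := by rw [a1]; linarith [p1.2]
      refine ⟨u, fun q hq => ?_, fun e => ?_, fun e => ?_⟩
      · have q1 : |q.1| ≤ K0 * (2 * η) := by
          rw [Prod.dist_eq, Real.dist_eq, sub_zero] at hq
          exact (le_max_left _ _).trans hq
        have q2 : dist (xs q) (xs p) ≤ ‖xsL‖ * (K0 * (2 * η)) := by
          rw [show xs p = xsL (0, p.2) from (xsL_ap _).symm ▸ rfl, ← xsL_ap]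
          exact (xsL.dist_le_opNorm _ _).trans (mul_le_mul_of_nonneg_left hq (norm_nonneg _))
        have q3 : |q.1| < δ := by linarith
        refine ⟨⟨q3, fun y hy => hρ (Metric.mem_cthickening_of_dist_le y (xs p) ρ _ pK ?_)⟩,
          (n2 q q3).2.le le_rfl (le_max_right _ _)⟩
        nlinarith [dist_triangle y (xs q) (xs p), Metric.mem_closedBall.1 hy,
          mul_le_mul_of_nonneg_left q1 c0]
      · have e' : (p + a).1 < V ∨ ψ (p + a) < 0 := e.imp_left fun e => by rw [a1]; linarith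
        obtain ⟨w1, w2⟩ := nice _ u v.le e1 e'
        exact ⟨⟨u, e'⟩, w1.shift.le (by omega) (le_max_left _ _), gq_shift (gau _ ⟨u, e'⟩),
          (jet_shift _ g a p).symm ▸ w2⟩
      · rw [fderiv_comp_add_right]
        refine ⟨hS.Yp _ u v.le e.le, fun w => ?_⟩
        rw [col ⟨u, e⟩]
        exact (top _ u v.le e.le).2.2 w
    · rw [xsL_ap, xs_pt] at hy
      exact ⟨(id y (K2U (inK y hy))).1, i2 y⟩
  obtain ⟨η', e1, g', W, w1, w2, w3⟩ := H.step
  obtain ⟨c', c1, c2⟩ := tube (a := V) ((cP.inter_right (isClosed_le continuous_const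
    continuous_fst)).diff (oE.preimage xs_cont)) fun p hp => lt_of_le_of_ne hp.1.2 fun e =>
      hp.2 (AE ⟨p, ⟨hp.1.1, e.symm⟩, rfl⟩)
  classical
  have new : ∀ p ∈ Om0 O ψ (min (min c' (V + 1)) (V + (η' - η))), p ∉ Om0 O ψ V → p + -a ∈ W ∧
      (fun p => if p ∈ Om0 O ψ V then g p else g' (p + -a)) =ᶠ[𝓝 p] fun p => g' (p + -a) :=
    fun p hp n => by
      have n1 : V ≤ p.1 := not_lt.1 fun e => n ⟨hp.1, Or.inl e⟩
      have n2 : 0 ≤ ψ p := not_lt.1 fun e => n ⟨hp.1, Or.inr e⟩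
      obtain ⟨n3, n4⟩ := lt_min_iff.1 (hp.2.resolve_right (not_lt.2 n2))
      obtain ⟨n5, n6⟩ := lt_min_iff.1 n3
      have pE : xs p ∈ E := by
        by_contra k
        exact absurd n5 (not_lt.2 (c2 p ⟨⟨⟨⟨hp.1, n6.le, by linarith⟩, n2⟩, n1⟩, k⟩))
      have t := a1 (p + -a)
      have t' := a2 (p + -a)
      rw [neg_add_cancel_right] at t t'
      have mW := w1 (p + -a) ⟨by linarith, by linarith⟩ (by rw [xsL_ap, ← t', χE _ pE])
      refine ⟨mW, ?_⟩
      filter_upwards [(continuous_add_const (-a)).continuousAt.eventually (w2.isOpen.mem_nhds mW)]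
        with x hx
      split_ifs with k
      · have t := a1 (x + -a)
        have := (w3 _ hx).2
        simp only [neg_add_cancel_right] at this t
        exact (this (k.2.imp_left fun e => by linarith)).symm
      · rfl
  have old : ∀ p ∈ Om0 O ψ V, (fun p => if p ∈ Om0 O ψ V then g p else g' (p + -a)) =ᶠ[𝓝 p] g :=
    fun p hp => mem_of_superset (lg.isOpen.mem_nhds hp) fun x hx => if_pos hx
  refine ⟨min (min c' (V + 1)) (V + (η' - η)), lt_min (lt_min c1 (by linarith)) (by linarith), _,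
    lv_local ?_ fun p hp => ?_,
    fun p hp => ?_, fun p hp => (old p hp).eq_of_nhds⟩
  · rw [show ∀ V, Om0 O ψ V = O ∩ Prod.fst ⁻¹' Iio V ∪ {p | p ∈ O ∧ ψ p < 0} from fun V =>
      Set.ext fun p => and_or_left]
    exact (hS.opn.inter (isOpen_Iio.preimage continuous_fst)).union oC
  · by_cases k : p ∈ Om0 O ψ V
    exacts [⟨g, _, lg, k, old p k⟩, ⟨_, _, lv_shift w2 (-a), (new p hp k).1, (new p hp k).2⟩]
  · by_cases k : p ∈ Om0 O ψ V
    · exact (gau p k).congr (old p k) .rfl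
    · have := gq_shift (w3 _ (new p hp k).1).1
      simp only [neg_add_cancel_right] at this
      exact this.congr (new p hp k).2 .rfl

theorem cont_of (hL : LOC) (hG : GUS) (hD : DATA) (hT : TRANS) : CONT :=
  let ⟨k, h⟩ := cont0 hL hG hD
  hT k h

end Vale.Agent.P354XV
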