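import Vale.Agent.P354XV.C1

/-!
The solution of the gauge equation in the new development.
-/

set_option maxSynthPendingDepth 3

open scoped ContDiff
open Set Filter Topology

noncomputable section

namespace Vale.Agent.P354XV

open Vale.Agent.P354n (R4)
open Vale.Agent.P354H (X3)
open Vale.Agent.P354R (Met Pull)
open Vale.Agent.P354RC (B2 Rp rp_of_met Gm at_df at_fd)
open Vale.Agent.P354XE (Tw pt xs eT Bd)

variable {N : Nat} {g g2 : Tw} {h : R4 → B2} {O D D2 P W : Set R4} {p z : R4} {K T : ℝ}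
  {f : R4 → ℝ} {pi b w Y : R4 → R4}

theorem eq2_iff (r : Rp g2 h D2) (hz : b z ∈ D2) : Eq2 N p g2 Y b w z ↔
    (p, jet N.m g2 (b z), w z) ∈ N.U ∧ fderiv ℝ w z (Y z) =
      N.F (p, jet N.m g2 (b z), w z) - Gm h (b z) (w z) (w z) := by
  refine and_congr_right' ⟨fun k => r.ext hz fun c => ?_, fun k c => ?_⟩
  · rw [map_sub, sub_apply, r.gm hz, ← r.chr hz, ← r.eq _ hz, ← r.eq _ hz, ← k]; ring
  · rw [k, r.chr hz, r.eq _ hz, r.eq _ hz, map_sub, sub_apply, r.gm hz]; ring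

theorem inj_of_det {A : R4 →L[ℝ] R4} (h : LinearMap.det (A : R4 →ₗ[ℝ] R4) ≠ 0) :
    Function.Injective A :=
  (LinearMap.equivOfDetNeZero _ h).injective

theorem line_eq (z : R4) (s : ℝ) : ((0 : ℝ), z.2) + s • eT = (s, z.2) := by simp [eT]

/-- An isometry b on a set W which is a union of vertical segments starting at t = 0. -/
structure Pc (g g2 : Tw) (D2 : Set R4) (K : ℝ) (W : Set R4) (b : R4 → R4) : Prop where
  opn : IsOpen W
  pos : ∀ p ∈ W, 0 < p.1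
  star : ∀ p ∈ W, ∀ s ∈ Ioc 0 p.1, (s, p.2) ∈ W
  sm : ContDiffOn ℝ ∞ b W
  maps : MapsTo b W D2
  est : ∀ p ∈ W, dist (b p) (0, p.2) ≤ K * p.1 ∧ ‖fderiv ℝ b p‖ ≤ K ∧
    0 < LinearMap.det (fderiv ℝ b p : R4 →ₗ[ℝ] R4) ∧
    ∀ v w, g p v w = g2 (b p) (fderiv ℝ b p v) (fderiv ℝ b p w)
  foot : ∀ p ∈ W, ContDiffAt ℝ ∞ b (0, p.2) ∧ b (0, p.2) = (0, p.2)

theorem Pc.pull (c : Pc g g2 D2 K W b) (l : Lv g2 D2) : Pull b g W g2 D2 :=
  ⟨c.opn, l.isOpen, l.met, c.sm, c.maps, fun p hp => inj_of_det (c.est p hp).2.2.1.ne',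
    fun p hp => (c.est p hp).2.2.2⟩

/-- The solution bh of the gauge equation with the initial velocity w0. -/
theorem core (hN : N.Is) (l2 : Lv g2 D2) (hO : IsOpen O) (hf : ContDiffOn ℝ ∞ f O)
    (hq : ContDiffOn ℝ ∞ pi O) (f0 : ∀ p ∈ O, 0 < f p) (hP : IsCompact P) (PO : P ⊆ O)
    (hK : 0 ≤ K) (PD : ∀ p ∈ P, p.1 ≤ T ∧ ∀ q, dist q (0, p.2) ≤ K * T → q ∈ D2) {F1 : Set X3}
    (hF : IsOpen F1) {w0 : X3 → R4} (hw : ContDiffOn ℝ ∞ w0 F1) :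
    ∃ (bh : R4 → R4) (G Z : Set R4), (∀ z ∈ closure Z, z.2 ∈ F1 → z ∈ G) ∧ IsOpen G ∧ G ⊆ O ∧ ContDiffOn ℝ ∞ bh G ∧ MapsTo bh G D2 ∧
      (∀ z ∈ G, Eq2 N (pi z) g2 (fun x => f x • eT) bh (fun x => fderiv ℝ bh x (f x • eT)) z) ∧
      ∀ g W b, Pc g g2 D2 K W b → W ⊆ P → (∀ p ∈ W, Gq N (pi p) g (fun x => f x • eT) p ∧
        (pi p, jet N.m g p, f p • eT) ∈ N.Mg ∧ p.2 ∈ F1 ∧ (0, p.2) ∈ O ∧
        fderiv ℝ b (0, p.2) (f (0, p.2) • eT) = w0 p.2) →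
        EqOn bh b W ∧ W ⊆ Z := by
  obtain ⟨h, r⟩ := rp_of_met l2.isOpen l2.met
  obtain ⟨C, hC⟩ := hP.exists_bound_of_continuousOn (hf.continuousOn.mono PO)
  let a : R4 × R4 × R4 → R4 × Jet N.m × R4 := fun x => (pi x.1, jet N.m g2 x.2.1, x.2.2)
  let v : R4 × R4 × R4 → R4 × R4 := fun x =>
    ((f x.1)⁻¹ • x.2.2, (f x.1)⁻¹ • (N.F (a x) - Gm h x.2.1 x.2.2 x.2.2))
  have oV : IsOpen (O ×ˢ D2 ×ˢ (univ : Set R4)) := hO.prod (l2.isOpen.prod isOpen_univ)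
  have sa : ContDiffOn ℝ ∞ a (O ×ˢ D2 ×ˢ univ) :=
    (hq.comp contDiffOn_fst fun _ m => m.1).prodMk (((jet_cd _ l2.isOpen l2.met).comp
      contDiffOn_snd.fst fun _ m => m.2.1).prodMk contDiffOn_snd.snd)
  have oU : IsOpen (O ×ˢ D2 ×ˢ univ ∩ a ⁻¹' N.U) :=
    sa.continuousOn.isOpen_inter_preimage oV hN.opn
  have sv : ContDiffOn ℝ ∞ v (O ×ˢ D2 ×ˢ univ ∩ a ⁻¹' N.U) := fun x m => by
    have i : ContDiffAt ℝ ∞ (fun x : R4 × R4 × R4 => (f x.1)⁻¹) x :=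
      ((hf.contDiffAt (hO.mem_nhds m.1.1)).comp x contDiffAt_fst).inv (f0 _ m.1.1).ne'
    exact ((i.smul contDiffAt_snd.snd).prodMk (i.smul (((hN.sm.contDiffAt (hN.opn.mem_nhds m.2)).comp
      x (sa.contDiffAt (oV.mem_nhds m.1))).sub (gm_cd r m.1.2.1 contDiffAt_snd.fst
        contDiffAt_snd.snd contDiffAt_snd.snd)))).contDiffWithinAt
  let Q : Set (R4 × R4 × R4) := (fun x : R4 × R4 × R4 => (x.1, (0, x.1.2) + x.2.1, x.2.2)) ''
    P ×ˢ Metric.closedBall 0 (K * T) ×ˢ Metric.closedBall 0 (K * C)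
  have cQ : IsCompact Q := (hP.prod ((isCompact_closedBall _ _).prod
    (isCompact_closedBall _ _))).image (by fun_prop)
  have QV : Q ⊆ O ×ˢ D2 ×ˢ univ := by
    rintro _ ⟨x, m, rfl⟩
    exact ⟨PO m.1, (PD _ m.1).2 _ (by simpa [dist_eq_norm] using m.2.1), mem_univ _⟩
  have cl : closure (Q ∩ a ⁻¹' N.Mg) ⊆ Q := closure_minimal inter_subset_left cQ.isClosed
  obtain ⟨u, M, Fl, su, oM, KM, MU, uv, sF, F0, Fd⟩ := P354YQ.ex_flow eT oU sv
    (cQ.of_isClosed_subset isClosed_closure cl) fun x m => ⟨QV (cl m), hN.cls _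
      (((sa.continuousOn.continuousAt (oV.mem_nhds (QV (cl m)))).continuousWithinAt.mem_closure
        m fun _ k => k.2)) (det_jet r (QV (cl m)).2.1)⟩
  let Φ : R4 → R4 × R4 := fun z => Fl (z.1, (0, z.2), (0, z.2), w0 z.2)
  have sΦ : ∀ z : R4, z.2 ∈ F1 → ContDiffAt ℝ ∞ Φ z := fun z m =>
    sF.contDiffAt.comp z (contDiffAt_fst.prodMk ((contDiffAt_const.prodMk contDiffAt_snd).prodMk
      ((contDiffAt_const.prodMk contDiffAt_snd).prodMk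
        ((hw.contDiffAt (hF.mem_nhds m)).comp z contDiffAt_snd))))
  have ln : ∀ {E : Type} [NormedAddCommGroup E] [NormedSpace ℝ E] {Ψ : R4 → E} {z : R4} {s : ℝ},
      ContDiffAt ℝ ∞ Ψ (s, z.2) → HasDerivAt (fun s => Ψ (s, z.2)) (fderiv ℝ Ψ (s, z.2) eT) s :=
    fun k => (at_df k).hasFDerivAt.comp_hasDerivAt _ ((hasDerivAt_id _).prodMk (hasDerivAt_const _ _))
  have dΦ : ∀ z : R4, z.2 ∈ F1 → fderiv ℝ Φ z eT = u (z, Φ z) := fun z m => by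
    have := (ln (s := z.1) (sΦ z m)).unique (Fd z.1 (0, z.2) ((0, z.2), w0 z.2))
    rwa [line_eq] at this
  have oG : IsOpen (Prod.snd ⁻¹' F1 ∩ (fun z => (z, Φ z)) ⁻¹' M) :=
    ContinuousOn.isOpen_inter_preimage (fun z m => (continuousAt_id.prodMk
      (sΦ z m).continuousAt).continuousWithinAt) (hF.preimage continuous_snd) oM
  have d1 : ∀ z ∈ Prod.snd ⁻¹' F1 ∩ (fun z => (z, Φ z)) ⁻¹' M,
      fderiv ℝ (fun z => (Φ z).1) z (f z • eT) = (Φ z).2 := fun z m => by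
    rw [fderiv.fst (at_df (sΦ z m.1)), map_smul, ContinuousLinearMap.comp_apply, dΦ z m.1, uv m.2]
    exact smul_inv_smul₀ (f0 _ (MU m.2).1.1).ne' _
  refine ⟨fun z => (Φ z).1, Prod.snd ⁻¹' F1 ∩ (fun z => (z, Φ z)) ⁻¹' M,
    (fun z => (z, Φ z)) ⁻¹' (Q ∩ a ⁻¹' N.Mg), fun z m k => mem_inter k (KM
    ((continuousAt_id.prodMk (sΦ z k).continuousAt).continuousWithinAt.mem_closure m
      fun _ k => k)), oG, fun z m => (MU m.2).1.1,
    fun z m => (sΦ z m.1).fst.contDiffWithinAt, fun z m => (MU m.2).1.2.1, fun z m => ?_,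
    fun g W b c WP hW => ?_⟩
  · refine (eq2_iff r (MU m.2).1.2.1).2 ?_
    rw [(show _ =ᶠ[𝓝 z] fun z => (Φ z).2 from mem_of_superset (oG.mem_nhds m) d1).fderiv_eq, d1 z m,
      fderiv.snd (at_df (sΦ z m.1)), map_smul, ContinuousLinearMap.comp_apply, dΦ z m.1, uv m.2]
    exact ⟨(MU m.2).2, smul_inv_smul₀ (f0 _ (MU m.2).1.1).ne' _⟩
  · let Ψ : R4 → R4 × R4 := fun z => (b z, fderiv ℝ b z (f z • eT))
    have sΨ : ∀ z ∈ O, ContDiffAt ℝ ∞ b z → ContDiffAt ℝ ∞ Ψ z := fun z m k =>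
      k.prodMk ((at_fd k).clm_apply ((hf.contDiffAt (hO.mem_nhds m)).smul contDiffAt_const))
    have sb : ∀ z ∈ W, ContDiffAt ℝ ∞ b z := fun z m => c.sm.contDiffAt (c.opn.mem_nhds m)
    have mS : ∀ z ∈ W, (z, Ψ z) ∈ Q ∩ a ⁻¹' N.Mg := fun z m => by
      obtain ⟨e1, e2, e3, -⟩ := c.est z m
      refine ⟨⟨(z, b z - (0, z.2), (Ψ z).2), ⟨WP m, ?_, ?_⟩, by simp [Ψ]⟩,
        (hN.nat b g W g2 D2 (c.pull l2) l2 z m e3 _ _).2.1.1 (hW z m).2.1⟩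
      · rw [mem_closedBall_zero_iff, ← dist_eq_norm]
        exact e1.trans (mul_le_mul_of_nonneg_left (PD _ (WP m)).1 hK)
      · rw [mem_closedBall_zero_iff]
        refine ((fderiv ℝ b z).le_opNorm _).trans (mul_le_mul e2 ?_ (norm_nonneg _) hK)
        rw [norm_smul, norm_eT, mul_one]; exact hC z (WP m)
    have dΨ : ∀ z ∈ W, fderiv ℝ Ψ z eT = u (z, Ψ z) := fun z m => by
      have zO := PO (WP m)
      have k := ((eq2_iff r (c.maps m)).1 ((gq_iff hN (c.pull l2) l2 m (c.est z m).2.2.1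
        (at_df ((hf.contDiffAt (hO.mem_nhds zO)).smul contDiffAt_const))).1 (hW z m).1)).2
      rw [uv (KM (subset_closure (mS z m))), (at_df (sb z m)).fderiv_prodMk (at_df (sΨ z zO (sb z m)).snd)]
      refine Prod.ext ?_ ?_
      · exact ((congrArg _ (map_smul _ _ _)).trans (inv_smul_smul₀ (f0 z zO).ne' _)).symm
      · exact ((congrArg _ (k.symm.trans (map_smul (fderiv ℝ (fun x => (Ψ x).2) z) (f z) eT))).trans
          (inv_smul_smul₀ (f0 z zO).ne' _)).symm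
    have e : EqOn Φ Ψ W := fun z m => by
      obtain ⟨t, t1, t2⟩ : ∃ t > z.1, ∀ s ∈ Ioo z.1 t, (s, z.2) ∈ W := by
        have : ∀ᶠ s in 𝓝[>] z.1, (s, z.2) ∈ W := nhdsWithin_le_nhds
          ((show ContinuousAt (fun s => (s, z.2)) z.1 by fun_prop).eventually (c.opn.mem_nhds m))
        exact (mem_nhdsGT_iff_exists_Ioo_subset.1 this).imp fun t k => ⟨k.1, k.2⟩
      have mW : ∀ s ∈ Ioo 0 t, (s, z.2) ∈ W := fun s hs =>
        (le_or_gt s z.1).elim (fun k => c.star z m s ⟨hs.1, k⟩) fun k => t2 s ⟨k, hs.2⟩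
      have := flow_eq su sF.continuous F0 Fd (γ := fun s => Ψ (s, z.2)) (w := (0, z.2))
        ⟨c.pos z m, t1⟩ (ln (sΨ _ (hW z m).2.2.2.1 (c.foot z m).1)).continuousAt fun s hs => by
          rw [line_eq, ← dΨ _ (mW s hs)]
          exact ln (sΨ _ (PO (WP (mW s hs))) (sb _ (mW s hs)))
      rw [show Ψ (0, z.2) = ((0, z.2), w0 z.2) from Prod.ext (c.foot z m).2 (hW z m).2.2.2.2] at this
      exact this.symm
    exact ⟨fun z m => congrArg Prod.fst (e m), fun x hx => by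
      simpa only [mem_preimage, e hx] using mS x hx⟩

end Vale.Agent.P354XV
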