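import Vale.Agent.P354XV.C2
import Vale.Agent.P354UG.Ug

/-!
One step of the continuation, from the slice t = 0 beyond the lid t = η.
-/

set_option maxSynthPendingDepth 3

open scoped ContDiff
open Set Filter Topology

noncomputable section

namespace Vale.Agent.P354XV

open Vale.Agent.P354n (R4)
open Vale.Agent.P354I (Dat)
open Vale.Agent.P354H (X3)
open Vale.Agent.P354R (Met Pull)
open Vale.Agent.P354RC (B2 Rp rp_of_met Gm at_df at_fd)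
open Vale.Agent.P354XE (Tw pt xs eT Bd pb)
open Vale.Agent.P354XU (lens)
open Vale.Agent.P354UG (ol ol_open ol_sub lens_sub)

/-- The statement of GUS for the constants B, K. -/
def Gus (B K : ℝ) : Prop :=
  ∀ (ι : Type) [Fintype ι] (φ : ι → R4 → ℝ) (T : ℝ) g D g' D' d,
    Lv g D → Lv g' D' → 0 < T → K * T ≤ 1 → (∀ i, ContDiff ℝ 1 (φ i)) →
    IsCompact (clens φ T) → clens φ T ⊆ D → P354XU.Star (clens φ T) →
    (∀ p ∈ clens φ T, Nice 1 B g Prod.fst p ∧ (∀ i, 0 < fderiv ℝ (φ i) p eT ∧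
        ∀ v, g p v v ≤ 0 → 0 < v.1 → 0 < fderiv ℝ (φ i) p v) ∧
      ∀ q, dist q (0, p.2) ≤ K * T → q ∈ D' ∧ Nice 1 B g' Prod.fst q) →
    (∀ y, pt 0 y ∈ clens φ T → In0 g d y ∧ In0 g' d y) →
    ∃ b O, IsOpen O ∧ lens φ T ⊆ O ∧ O ⊆ D ∧ ContDiffOn ℝ ∞ b O ∧ MapsTo b O D' ∧
      (∀ p ∈ O, p.1 = 0 → b p = p) ∧ ∀ p ∈ lens φ T, dist (b p) (0, p.2) ≤ K * p.1 ∧
        ‖fderiv ℝ b p‖ ≤ K ∧ 0 < LinearMap.det (fderiv ℝ b p : R4 →ₗ[ℝ] R4) ∧
        (p.1 = 0 → 0 < (fderiv ℝ b p eT).1) ∧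
        ∀ v w, g p v w = g' (b p) (fderiv ℝ b p v) (fderiv ℝ b p w)

/-- The hypotheses of the step. -/
structure Stp (N : Nat) (O D D2 : Set R4) (g g2 : Tw) (d : Dat) (f psi β : R4 → ℝ)
    (pi : R4 → R4) (B K L η : ℝ) : Prop where
  gus : Gus B K
  nat : N.Is
  opn : IsOpen O
  smf : ContDiffOn ℝ ∞ f O
  smp : ContDiffOn ℝ ∞ psi O
  smq : ContDiffOn ℝ ∞ pi O
  pos : ∀ p ∈ O, 0 < f p
  lv : Lv g D
  lv2 : Lv g2 D2
  sb : ContDiff ℝ ∞ β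
  ind : ∀ p s, β (s, p.2) = β p
  db : ∀ p, ‖fderiv ℝ β p‖ ≤ L
  K0 : 0 ≤ K
  e0 : 0 < η
  e1 : K * (2 * η) ≤ 1
  e2 : (1 + L * (1 + B + 2 * B ^ 2)) * (2 * η) < 1 / 2
  cpt : IsCompact {p : R4 | p.1 ∈ Icc 0 (2 * η) ∧ 1 / 2 ≤ β p}
  all : ∀ p : R4, p.1 ∈ Icc 0 (2 * η) → 1 / 2 ≤ β p → p ∈ O ∧
    (∀ q, dist q (0, p.2) ≤ K * (2 * η) → q ∈ D2 ∧ Nice 1 B g2 Prod.fst q) ∧
    (p.1 < η ∨ psi p < 0 → p ∈ D ∧ Nice 1 B g Prod.fst p ∧
      Gq N (pi p) g (fun x => f x • eT) p ∧ (pi p, jet N.m g p, f p • eT) ∈ N.Mg) ∧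
    (psi p < 0 → 0 < fderiv ℝ psi p eT ∧ ∀ v, g p v v ≤ 0 → 0 < v.1 → 0 < fderiv ℝ psi p v)
  dat : ∀ y, 1 / 2 ≤ β (pt 0 y) → In0 g d y ∧ In0 g2 d y

variable {N : Nat} {O D D2 : Set R4} {g g2 : Tw} {d : Dat} {f psi β φ : R4 → ℝ} {pi : R4 → R4}
  {B K L η : ℝ}

/-- The function which bounds the lenses on the side. -/
def sd (β : R4 → ℝ) (B L : ℝ) (p : R4) : ℝ := (1 + L * (1 + B + 2 * B ^ 2)) * p.1 + 1 / 2 - β p

theorem Stp.piece (h : Stp N O D D2 g g2 d f psi β pi B K L η) (sφ : ContDiff ℝ 1 φ)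
    (hφ : ∀ p : R4, p.1 ∈ Icc 0 (2 * η) → 1 / 2 ≤ β p → φ p ≤ 0 → (p.1 < η ∨ psi p < 0) ∧
      0 < fderiv ℝ φ p eT ∧ ∀ v, g p v v ≤ 0 → 0 < v.1 → 0 < fderiv ℝ φ p v) :
    ∃ b O', IsOpen O' ∧ ContDiffOn ℝ ∞ b O' ∧ Pc g g2 D2 K (ol ![sd β B L, φ] (2 * η)) b ∧
      (∀ p ∈ ol ![sd β B L, φ] (2 * η), (0, p.2) ∈ lens ![sd β B L, φ] (2 * η)) ∧
      ∀ p ∈ lens ![sd β B L, φ] (2 * η), p.1 = 0 → p ∈ O' ∧ 0 < (fderiv ℝ b p eT).1 ∧
        (∀ v : R4, v.1 = 0 → fderiv ℝ b p v = v) ∧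
        ∀ v w, g p v w = g2 p (fderiv ℝ b p v) (fderiv ℝ b p w) := by
  obtain ⟨H, r⟩ := rp_of_met h.lv.isOpen h.lv.met
  have L0 : 0 ≤ L := (norm_nonneg _).trans (h.db 0)
  have sm : ∀ i, ContDiff ℝ 1 (![sd β B L, φ] i) := Fin.forall_fin_two.2
    ⟨((contDiff_const.mul contDiff_fst).add contDiff_const).sub (h.sb.of_le (by simp)), sφ⟩
  have fd : ∀ p v, fderiv ℝ (sd β B L) p v =
      (1 + L * (1 + B + 2 * B ^ 2)) * v.1 - fderiv ℝ β p v := fun p v => by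
    rw [show fderiv ℝ (sd β B L) p = _ from (((hasFDerivAt_fst.const_mul _).add_const _).sub
      (h.sb.differentiable (by simp) p).hasFDerivAt).fderiv]
    rfl
  have bT : ∀ p, fderiv ℝ β p eT = 0 := fun p => by
    have := ln_fd (z := p) (s := p.1) (h.sb.differentiable (by simp) _)
    simp only [h.ind] at this
    exact this.unique (hasDerivAt_const _ _)
  have c0 : 0 ≤ 1 + B + 2 * B ^ 2 := by nlinarith [sq_nonneg (B + 1), sq_nonneg B]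
  have k0 : 0 < 1 + L * (1 + B + 2 * B ^ 2) := by positivity
  have mem : ∀ p ∈ clens ![sd β B L, φ] (2 * η), 1 / 2 ≤ β p := fun p hp => by
    have a : sd β B L p ≤ 0 := hp.2 0
    have := mul_nonneg k0.le hp.1.1
    unfold sd at a
    linarith
  have low : ∀ p ∈ clens ![sd β B L, φ] (2 * η), ∀ s ∈ Icc 0 p.1, ∀ i,
      ![sd β B L, φ] i (s, p.2) ≤ ![sd β B L, φ] i p := fun p hp s hs => Fin.forall_fin_two.2
    ⟨by
      have := mul_le_mul_of_nonneg_left hs.2 k0.le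
      simp only [Matrix.cons_val_zero, sd, h.ind]
      linarith,
    le_end (f := fun s => φ (s, p.2)) (fun s _ => ln_fd (sφ.differentiable (by simp) _))
      (fun s hs e => (hφ (s, p.2) ⟨hs.1, hs.2.trans hp.1.2⟩ ((h.ind p s).symm ▸ mem p hp)
        (e.trans_le (hp.2 1))).2.1) le_rfl s hs⟩
  obtain ⟨b, O', o1, o2, -, o4, o5, o6, o7⟩ := h.gus (Fin 2) ![sd β B L, φ] (2 * η) g D g2 D2 d h.lv
    h.lv2 (by linarith [h.e0]) h.e1 sm (h.cpt.of_isClosed_subset (by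
      rw [show clens ![sd β B L, φ] (2 * η) = Prod.fst ⁻¹' Icc 0 (2 * η) ∩
        ⋂ i, {p | ![sd β B L, φ] i p ≤ 0} from by ext; simp only [clens, mem_iInter, mem_inter_iff,
          mem_preimage, mem_ofPred_eq]]
      exact (isClosed_Icc.preimage continuous_fst).inter (isClosed_iInter fun i =>
        isClosed_le (sm i).continuous continuous_const)) fun p hp => ⟨hp.1, mem p hp⟩)
    (fun p hp => ((h.all p hp.1 (mem p hp)).2.2.1 (hφ p hp.1 (mem p hp) (hp.2 1)).1).1)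
    (fun p hp s hs => by
      rw [uIcc_of_le hp.1.1] at hs
      exact ⟨⟨hs.1, hs.2.trans hp.1.2⟩, fun i => (low p hp s hs i).trans (hp.2 i)⟩)
    (fun p hp => by
      obtain ⟨-, a2, a3, -⟩ := h.all p hp.1 (mem p hp)
      obtain ⟨b1, b2⟩ := hφ p hp.1 (mem p hp) (hp.2 1)
      refine ⟨(a3 b1).2.1, Fin.forall_fin_two.2 ⟨⟨?_, fun v hv v0 => ?_⟩, b2⟩, a2⟩ <;>
        simp only [Matrix.cons_val_zero, fd]
      · rw [bT, sub_zero]; exact mul_pos k0 one_pos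
      · have n := ((a3 b1).2.1.n0 r (a3 b1).1).cone (r.eq p (a3 b1).1 v v ▸ hv)
        rw [abs_of_pos v0] at n
        have := (le_abs_self _).trans (((fderiv ℝ β p).le_opNorm v).trans
          (mul_le_mul (h.db p) n (norm_nonneg _) L0))
        linarith)
    fun y hy => h.dat y (mem _ hy)
  have ft : ∀ p ∈ ol ![sd β B L, φ] (2 * η), ∀ s ∈ Icc 0 p.1,
      (s, p.2) ∈ lens ![sd β B L, φ] (2 * η) := fun p hp s hs =>
    ⟨⟨hs.1, hs.2.trans hp.1.2.le⟩, fun i =>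
      (low p (lens_sub (ol_sub le_rfl hp)) s hs i).trans_lt (hp.2 i)⟩
  have sub : ol ![sd β B L, φ] (2 * η) ⊆ O' := (ol_sub le_rfl).trans o2
  refine ⟨b, O', o1, o4, ⟨ol_open (fun i => (sm i).continuous) _, fun p hp => hp.1.1,
    fun p hp s hs => ⟨⟨hs.1, hs.2.trans_lt hp.1.2⟩, (ft p hp s ⟨hs.1.le, hs.2⟩).2⟩, o4.mono sub,
    o5.mono_left sub, fun p hp => ?_, fun p hp => ?_⟩, fun p hp => ft p hp 0 ⟨le_rfl, hp.1.1.le⟩,
    fun p hp e => ?_⟩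
  · obtain ⟨a1, a2, a3, -, a5⟩ := o7 p (ol_sub le_rfl hp)
    exact ⟨a1, a2, a3, a5⟩
  · have m := o2 (ft p hp 0 ⟨le_rfl, hp.1.1.le⟩)
    exact ⟨o4.contDiffAt (o1.mem_nhds m), o6 _ m rfl⟩
  · obtain ⟨-, -, -, a4, a5⟩ := o7 p hp
    rw [o6 p (o2 hp) e] at a5
    exact ⟨o2 hp, a4 e, fd_slice o1 (o2 hp) e (at_df (o4.contDiffAt (o1.mem_nhds (o2 hp)))) o6, a5⟩

theorem Stp.step (h : Stp N O D D2 g g2 d f psi β pi B K L η) : ∃ η2 > η, ∃ g' W,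
    (∀ p : R4, p.1 ∈ Ico η η2 → 1 ≤ β p → p ∈ W) ∧ Lv g' W ∧
    ∀ p ∈ W, Gq N (pi p) g' (fun x => f x • eT) p ∧ (p.1 < η ∨ psi p < 0 → g' p = g p) := by
  obtain ⟨H, r⟩ := rp_of_met h.lv.isOpen h.lv.met
  obtain ⟨H2, r2⟩ := rp_of_met h.lv2.isOpen h.lv2.met
  have e0 := h.e0
  have L0 : 0 ≤ L := (norm_nonneg _).trans (h.db 0)
  have c0 : 0 ≤ 1 + B + 2 * B ^ 2 := by nlinarith [sq_nonneg (B + 1), sq_nonneg B]
  have k0 : 0 < 1 + L * (1 + B + 2 * B ^ 2) := by positivity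
  have mem : ∀ p : R4, 0 ≤ p.1 → sd β B L p < 0 → 1 / 2 ≤ β p := fun p hp a => by
    have := mul_nonneg k0.le hp
    unfold sd at a
    linarith
  have pA : ∀ t < η, _ := fun t ht => h.piece (φ := fun p => p.1 - t)
    (contDiff_fst.sub contDiff_const) fun p _ _ k => by
      rw [show fderiv ℝ (fun p : R4 => p.1 - t) p = _ from (hasFDerivAt_fst.sub_const t).fderiv]
      exact ⟨Or.inl (by linarith), one_pos, fun v _ k => k⟩
  obtain ⟨b1, O1, o1, s1, -, -, q1⟩ := pA (η / 2) (by linarith)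
  have i0 : ContDiff ℝ ∞ fun y : X3 => ((0, y) : R4) := contDiff_const.prodMk contDiff_id
  obtain ⟨bh, G, Z, z1, oG, GO, sG, mG, eG, kG⟩ := core (T := 2 * η) h.nat h.lv2 h.opn h.smf h.smq
    h.pos h.cpt (fun p hp => (h.all p hp.1 hp.2).1) h.K0
    (fun p hp => ⟨hp.1.2, fun q hq => ((h.all p hp.1 hp.2).2.1 q hq).1⟩)
    ((o1.inter h.opn).preimage i0.continuous)
    (w0 := fun y => fderiv ℝ b1 (0, y) (f (0, y) • eT)) fun y hy =>
      (((at_fd (s1.contDiffAt (o1.mem_nhds hy.1))).clm_apply ((h.smf.contDiffAt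
        (h.opn.mem_nhds hy.2)).smul contDiffAt_const)).comp y i0.contDiffAt).contDiffWithinAt
  have l1 : ∀ p : R4, sd β B L (0, p.2) < 0 →
      (0, p.2) ∈ lens ![sd β B L, fun p => p.1 - η / 2] (2 * η) := fun p k =>
    ⟨⟨le_rfl, by linarith⟩, Fin.forall_fin_two.2 ⟨k, by simpa using e0⟩⟩
  have key : ∀ φ : R4 → ℝ, ContDiff ℝ 1 φ → (∀ p : R4, p.1 ∈ Icc 0 (2 * η) → 1 / 2 ≤ β p → φ p ≤ 0 →
      (p.1 < η ∨ psi p < 0) ∧ 0 < fderiv ℝ φ p eT ∧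
        ∀ v, g p v v ≤ 0 → 0 < v.1 → 0 < fderiv ℝ φ p v) → ∀ p ∈ ol ![sd β B L, φ] (2 * η),
      p ∈ Z ∧ 0 < LinearMap.det (fderiv ℝ bh p : R4 →ₗ[ℝ] R4) ∧ pb bh g2 p = g p := by
    intro φ sφ hφ
    obtain ⟨b, O', -, -, c, ft, q⟩ := h.piece sφ hφ
    have mP : ∀ p ∈ ol ![sd β B L, φ] (2 * η), p.1 ∈ Icc 0 (2 * η) ∧ 1 / 2 ≤ β p := fun p hp =>
      ⟨Ioo_subset_Icc_self hp.1, mem p hp.1.1.le (hp.2 0)⟩
    obtain ⟨e, z⟩ := kG g _ b c mP fun p hp => by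
      obtain ⟨-, -, a, -⟩ := h.all p (mP p hp).1 (mP p hp).2
      obtain ⟨-, -, a1, a2⟩ := a (hφ p (mP p hp).1 (mP p hp).2 (hp.2 1).le).1
      have m := ft p hp
      obtain ⟨a3, a4, -⟩ := h.all _ m.1 (mem _ le_rfl (m.2 0))
      obtain ⟨u1, u2, u3, u4⟩ := q1 _ (l1 p (m.2 0)) rfl
      obtain ⟨-, v2, v3, v4⟩ := q _ m rfl
      have m2 := (a4 (0, p.2) (by rw [dist_self]; exact mul_nonneg h.K0 (by linarith))).1
      refine ⟨a1, a2, ⟨u1, a3⟩, a3, ?_⟩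
      simp only [r2.eq _ m2] at u4 v4
      simp only [map_smul, iso_eq (r2.symm _ m2) (r2.nd _ m2) v4 u4 v3 u3 v2 u2]
    intro p hp
    have ev : bh =ᶠ[𝓝 p] b := mem_of_superset (c.opn.mem_nhds hp) e
    refine ⟨z hp, by rw [ev.fderiv_eq]; exact (c.est p hp).2.2.1, funext fun v => funext fun w => ?_⟩
    rw [(c.est p hp).2.2.2, pb, ev.fderiv_eq, e hp]
  have kA : ∀ p : R4, p.1 ∈ Ioo 0 η → sd β B L p < 0 →
      p ∈ Z ∧ 0 < LinearMap.det (fderiv ℝ bh p : R4 →ₗ[ℝ] R4) ∧ pb bh g2 p = g p := fun p hp k =>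
    key (fun q => q.1 - (p.1 + η) / 2) (contDiff_fst.sub contDiff_const) (fun q _ _ k => by
      rw [show fderiv ℝ (fun q : R4 => q.1 - (p.1 + η) / 2) q = _ from
        (hasFDerivAt_fst.sub_const _).fderiv]
      exact ⟨Or.inl (by linarith [hp.2]), one_pos, fun v _ k => k⟩) p
      ⟨⟨hp.1, by linarith [hp.2]⟩, Fin.forall_fin_two.2 ⟨k, by
        simp only [Matrix.cons_val_one, Matrix.cons_val_zero]; linarith [hp.2]⟩⟩
  obtain ⟨ψ, sψ, eψ⟩ := ex_ext h.opn h.cpt (fun p hp => (h.all p hp.1 hp.2).1) h.smp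
  have kB : ∀ p : R4, p.1 ∈ Ioo 0 (2 * η) → sd β B L p < 0 → psi p < 0 → pb bh g2 p = g p :=
    fun p hp k k' => (key (fun q => ψ q - psi p / 2) ((sψ.of_le (by simp)).sub contDiff_const)
      (fun q q1 q2 q3 => by
        have e := eψ q ⟨q1, q2⟩
        have n : psi q < 0 := by linarith [e.eq_of_nhds]
        rw [fderiv_sub_const, e.fderiv_eq]
        exact ⟨Or.inr n, (h.all q q1 q2).2.2.2 n⟩) p ⟨hp, Fin.forall_fin_two.2 ⟨k, by
      simp only [Matrix.cons_val_one, Matrix.cons_val_zero]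
      linarith [(eψ p ⟨Ioo_subset_Icc_self hp, mem p hp.1.le k⟩).eq_of_nhds]⟩⟩).2.2
  have cd : ∀ p ∈ G, ContinuousAt (fun p => LinearMap.det (fderiv ℝ bh p : R4 →ₗ[ℝ] R4)) p :=
    fun p hp => ContinuousLinearMap.continuous_det.continuousAt.comp
      (at_fd (sG.contDiffAt (oG.mem_nhds hp))).continuousAt
  have cs : Continuous (sd β B L) :=
    ((continuous_const.mul continuous_fst).add continuous_const).sub h.sb.continuous
  let W := (G ∩ (fun p => LinearMap.det (fderiv ℝ bh p : R4 →ₗ[ℝ] R4)) ⁻¹' Ioi 0) ∩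
    (Prod.fst ⁻¹' Ioo 0 (2 * η) ∩ sd β B L ⁻¹' Iio 0)
  have oW : IsOpen W := (ContinuousOn.isOpen_inter_preimage (fun p hp =>
    (cd p hp).continuousWithinAt) oG isOpen_Ioi).inter
      ((isOpen_Ioo.preimage continuous_fst).inter (isOpen_Iio.preimage cs))
  have P : Pull bh (pb bh g2) W g2 D2 := ⟨oW, h.lv2.isOpen, h.lv2.met, sG.mono fun _ m => m.1.1,
    fun _ m => mG m.1.1, fun _ m => inj_of_det (ne_of_gt m.1.2), fun _ _ _ _ => rfl⟩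
  have neg : ∀ p : R4, p.1 ≤ 2 * η → 1 ≤ β p → sd β B L p < 0 := fun p a b => by
    have := mul_le_mul_of_nonneg_left a k0.le
    unfold sd
    linarith [h.e2]
  have lid : ∀ p : R4, p.1 = η → 1 ≤ β p → p ∈ W := fun p a b => by
    have t : Tendsto (fun s => (s, p.2)) (𝓝[<] η) (𝓝 p) :=
      ((show ContinuousAt (fun s => ((s, p.2) : R4)) η by fun_prop).tendsto.mono_left
        nhdsWithin_le_nhds).mono_right (by rw [← a])
    have ev : ∀ᶠ s in 𝓝[<] η, s ∈ Ioo 0 η ∧ sd β B L (s, p.2) < 0 :=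
      mem_of_superset (Ioo_mem_nhdsLT e0) fun s hs =>
        ⟨hs, neg _ (by linarith [hs.2]) ((h.ind p s).symm ▸ b)⟩
    have n0 := neg (0, p.2) (by linarith) ((h.ind p 0).symm ▸ b)
    have pG : p ∈ G := z1 p (mem_closure_of_tendsto t (ev.mono fun s k => (kA _ k.1 k.2).1))
      ⟨(q1 _ (l1 p n0) rfl).1, (h.all _ ⟨le_rfl, by linarith⟩ (mem _ le_rfl n0)).1⟩
    have sp := sG.contDiffAt (oG.mem_nhds pG)
    have inj : Function.Injective (fderiv ℝ bh p) := (injective_iff_map_eq_zero _).2 fun v hv => by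
      have c := (((P354RC.pb_cd (r2.at (mG pG)) sp).continuousAt.clm_apply
        (continuousAt_const (y := v))).norm.tendsto.comp t).const_mul (2 * B * (1 + B) * (1 + 3 * B))
      have z : P354RC.pb H2 bh p v = 0 := ContinuousLinearMap.ext fun w => by
        rw [P354RC.pb_ap, hv, map_zero]; rfl
      rw [z, norm_zero, mul_zero] at c
      refine norm_le_zero_iff.1 (ge_of_tendsto c ?_)
      filter_upwards [ev, t.eventually (oG.mem_nhds pG)] with s k k'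
      obtain ⟨a1, a2, -⟩ := (h.all (s, p.2) ⟨k.1.1.le, by linarith [k.1.2]⟩
        (mem _ k.1.1.le k.2)).2.2.1 (Or.inl k.1.2)
      refine ((a2.n0 r a1).nd v).trans_eq (congrArg _ (congrArg _ (ContinuousLinearMap.ext fun w => ?_)))
      rw [← r.eq _ a1, ← (kA _ k.1 k.2).2.2, P354RC.pb_ap, ← r2.eq _ (mG k')]; rfl
    refine ⟨⟨pG, lt_of_le_of_ne (ge_of_tendsto ((cd p pG).tendsto.comp t)
      (ev.mono fun s k => (kA _ k.1 k.2).2.1.le)) (Ne.symm ?_)⟩,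
      ⟨by rw [a]; exact e0, by rw [a]; linarith⟩, neg p (by linarith) b⟩
    exact (LinearEquiv.ofInjectiveEndo (fderiv ℝ bh p : R4 →ₗ[ℝ] R4) inj).isUnit_det'.ne_zero
  obtain ⟨c, c1, c2⟩ := tube (a := η) ((h.cpt.inter_right ((isClosed_le continuous_const
    continuous_fst).inter (isClosed_le continuous_const h.sb.continuous))).diff oW)
      fun p hp => lt_of_le_of_ne hp.1.2.1 fun e => hp.2 (lid p e.symm hp.1.2.2)
  refine ⟨min c (2 * η), lt_min c1 (by linarith), pb bh g2, W, fun p a b => ?_, h.lv2.pull P,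
    fun p hp => ⟨(gq_iff h.nat P h.lv2 hp hp.1.2 (at_df ((h.smf.contDiffAt (h.opn.mem_nhds
      (GO hp.1.1))).smul contDiffAt_const))).2 (eG p hp.1.1), fun k => k.elim
        (fun k => (kA p ⟨hp.2.1.1, k⟩ hp.2.2).2.2) (kB p hp.2.1 hp.2.2)⟩⟩
  by_contra n
  exact absurd (a.2.trans_le (min_le_left _ _)) (not_lt.2 (c2 p ⟨⟨⟨⟨by linarith [a.1],
    (a.2.trans_le (min_le_right _ _)).le⟩, by linarith⟩, a.1, b⟩, n⟩))

end Vale.Agent.P354XV
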