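import Vale.Agent.P354YA.Nat
import Vale.Agent.P354YN.Smo
import Vale.Agent.P354YN.Jet
import Vale.Agent.P354YT.Cut
import Vale.Agent.P354XV.Loc

/-!
FIR: the first integrals of the gauge along a line of X.
-/

set_option maxSynthPendingDepth 3

open scoped ContDiff
open Set Filter Topology

noncomputable section

namespace Vale.Agent.P354XV

open Vale.Agent.P354n (R4)
open Vale.Agent.P354RC (bs cv Gm Rp sum_bs Gm_add2 Gm_smul2 Gm_add1 Gm_smul1 fd_ap fd_ap0)
open Vale.Agent.P354XD (tb rp_tb dh_eq gm_symm)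
open Vale.Agent.P354XE (Tw rd)
open Vale.Agent.P354YN
open Vale.Agent.P354YA
open Vale.Agent.P354YT (Pm TAU al_out al_in al_cd bp_cd)

/-- A solution of a linear equation which vanishes at the start vanishes. -/
theorem lin0 {a b : ℝ} {Z : ℝ → R4} {L : ℝ → R4 → R4} (hc : ContinuousOn Z (Icc a b))
    (hZ : ∀ s ∈ Ico a b, HasDerivWithinAt Z (L s (Z s)) (Ici s) s)
    (hl : ∀ s ∈ Icc a b, IsLinearMap ℝ (L s)) (hL : ∀ v, ContinuousOn (L · v) (Icc a b))
    (h0 : Z a = 0) : ∀ s ∈ Icc a b, Z s = 0 := by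
  choose C hC using fun i => isCompact_Icc.exists_bound_of_continuousOn (hL (bs i))
  refine eq_zero_of_abs_deriv_le_mul_abs_self_of_eq_zero_right (K := ∑ i, C i * ‖cv i‖) hc hZ h0
    fun s hs => ?_
  have hs := Ico_subset_Icc_self hs
  have e : L s (Z s) = ∑ i, cv i (Z s) • L s (bs i) := by
    conv_lhs => rw [← sum_bs (Z s)]
    simp only [Fin.sum_univ_four, (hl s hs).map_add, (hl s hs).map_smul]
  rw [e, Finset.sum_mul]
  refine norm_sum_le_of_le _ fun i _ => ?_
  rw [norm_smul, mul_assoc, mul_comm]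
  exact mul_le_mul (hC i s hs) ((cv i).le_opNorm _) (norm_nonneg _) ((norm_nonneg _).trans (hC i s hs))

variable {g : Tw} {D : Set R4} {p w : R4} {m : ℝ} {X : R4 → R4}

theorem Lv.jet_at (l : Lv g D) (hp : p ∈ D) (k : ℕ) : ContDiffAt ℝ ∞ (jet k g) p :=
  (jet_cd k l.isOpen l.met).contDiffAt (l.isOpen.mem_nhds hp)

/-- The gauge condition as an equation for vectors. -/
theorem Gq.acc {N : Nat} {q : R4} (h : Gq N q g X p) (l : Lv g D) (hp : p ∈ D) :
    fderiv ℝ X p (X p) + Gm (tb g) p (X p) (X p) = N.F (q, jet N.m g p, X p) := by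
  have r := rp_tb l.isOpen l.met
  refine r.ext hp fun c => ?_
  rw [map_add, add_apply, r.gm hp, ← r.chr hp, ← r.eq p hp, ← r.eq p hp, h.2]

/-- The covariant derivative of a natural field, with the frozen vector w. -/
theorem nab_eq (l : Lv g D) (hp : p ∈ D) {F : A3 → R4} (f : ContDiffAt ℝ ∞ F (m, jet 3 g p, w))
    (v : R4) : nab F (m, jet 4 g p, w) v = fderiv ℝ (fun x => F (m, jet 3 g x, w)) p v +
      Gm (tb g) p v (F (m, jet 3 g p, w)) := by
  have f1 : DifferentiableAt ℝ (fun y => F (m, y, w)) (jet 3 g p) :=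
    (f.comp (f := fun y => (m, y, w)) (jet 3 g p) (contDiffAt_const.prodMk
      (contDiffAt_id.prodMk contDiffAt_const))).differentiableAt (by simp)
  have e := (f1.hasFDerivAt.comp p ((l.jet_at hp 3).differentiableAt (by simp)).hasFDerivAt).fderiv
  rw [nab, gj_jet l.isOpen l.met hp, show fderiv ℝ (fun x => F (m, jet 3 g x, w)) p = _ from e]
  refine congrArg₂ _ ?_ rfl
  conv_rhs => rw [← sum_bs v, map_sum]
  refine Finset.sum_congr rfl fun a _ => ?_
  rw [map_smul, co_eq, ContinuousLinearMap.comp_apply,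
    fd_jet 3 fun u v => (l.met.smooth u v).contDiffAt (l.isOpen.mem_nhds hp)]
  rfl

theorem nab_lin (l : Lv g D) (hp : p ∈ D) {F : A3 → R4} (f : ContDiffAt ℝ ∞ F (m, jet 3 g p, w)) :
    IsLinearMap ℝ (nab F (m, jet 4 g p, w)) :=
  ⟨fun u v => by simp only [nab_eq l hp f, map_add, Gm_add1]; abel,
    fun t v => by simp only [nab_eq l hp f, map_smul, Gm_smul1, smul_add]⟩

/-- The vector in the natural fields may be frozen. -/
theorem frz (hF : FLD) (l : Lv g D) (hp : p ∈ D) (hX : ContDiffAt ℝ ∞ X p) (a : Ad m g (X p) p) :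
    ∀ᶠ x in 𝓝 p, lN m g (X x) x = lN m g (X p) x ∧ nN m g (X x) x = nN m g (X p) x ∧
      zN m g (X x) x = zN m g (X p) x := by
  have r := rp_tb l.isOpen l.met
  have j : ContDiffAt ℝ ∞ (fun x => ((m, jet 3 g x, X p) : A3)) p :=
    contDiffAt_const.prodMk ((l.jet_at hp 3).prodMk contDiffAt_const)
  have c : ContDiffAt ℝ ∞ (fun x => tb g x (lN m g (X p) x + nN m g (X p) x) (X x)) p :=
    ((r.at hp).clm_apply (((lj_at a).comp p j).add ((nj_at a).comp p j))).clm_apply hX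
  filter_upwards [l.isOpen.mem_nhds hp, j.continuousAt (u3_open.mem_nhds a),
    c.continuousAt.eventually_lt_const ((r.eq p hp _ _).ge.trans_lt (hF m g D _ p l hp a).fut)]
    with x h1 h2 h3
  obtain ⟨-, -, e1, e2, e3, -⟩ := (hF m g D _ x l h1 h2).ind (X x) (by rw [r.eq x h1]; exact h3)
  exact ⟨e1, e2, e3⟩

theorem smul_fd {a : R4 → ℝ} {Z Z' : R4 → R4} (ha : ContDiffAt ℝ ∞ a p) (hZ : ContDiffAt ℝ ∞ Z' p)
    (e : Z =ᶠ[𝓝 p] Z') : HasFDerivAt (fun x => a x • Z x)
      (a p • fderiv ℝ Z' p + (fderiv ℝ a p).smulRight (Z' p)) p :=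
  ((ha.differentiableAt (by simp)).hasFDerivAt.smul
    (hZ.differentiableAt (by simp)).hasFDerivAt).congr_of_eventuallyEq
      (e.mono fun x hx => by simp only [hx, Pi.smul_apply'])

variable {c : Pm}

theorem co_cd (h : 0 < rd p) : ContDiffAt ℝ ∞ (ca c) p ∧ ContDiffAt ℝ ∞ (cl c) p ∧
    ContDiffAt ℝ ∞ (cn c) p ∧ ContDiffAt ℝ ∞ (dd c) p :=
  have r := P354XA.rd_cd (n := ∞) h.ne'
  have k := (P354YT.Pm.xi_cd (c := c)).contDiffAt.comp p r
  ⟨al_cd.contDiffAt.comp p k, bp_cd.contDiffAt.comp p k, bp_cd.contDiffAt.comp p k.neg,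
    r.sub contDiffAt_const⟩

/-- The natural field along X. -/
def Yx (c : Pm) (g : Tw) (x : R4) : R4 := Yv c x (c.M, jet 3 g x, c.X x)

theorem yx_fd (hF : FLD) (l : Lv g D) (hp : p ∈ D) (h : 0 < rd p) (hX : ContDiffAt ℝ ∞ c.X p)
    (a : Ad c.M g (c.X p) p) : DifferentiableAt ℝ (Yx c g) p ∧
    fderiv ℝ (Yx c g) p (c.X p) + Gm (tb g) p (c.X p) (Yx c g p) =
      Fy c p (c.M, jet 4 g p, c.X p) := by
  have j : ContDiffAt ℝ ∞ (fun x => ((c.M, jet 3 g x, c.X p) : A3)) p :=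
    contDiffAt_const.prodMk ((l.jet_at hp 3).prodMk contDiffAt_const)
  have z := frz hF l hp hX a
  obtain ⟨c1, c2, c3, -⟩ := co_cd (c := c) h
  have d := ((smul_fd c1 ((zj_at a).comp p j) (z.mono fun _ h => h.2.2)).add
    (smul_fd c2 ((lj_at a).comp p j) (z.mono fun _ h => h.1))).add
    (smul_fd c3 ((nj_at a).comp p j) (z.mono fun _ h => h.2.1))
  refine ⟨d.differentiableAt, ?_⟩
  rw [show fderiv ℝ (Yx c g) p = _ from d.fderiv]
  simp only [Fy, nab_eq l hp (zj_at a), nab_eq l hp (lj_at a), nab_eq l hp (nj_at a), Yx, Yv,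
    Gm_add2, Gm_smul2, add_apply, smul_apply,
    ContinuousLinearMap.smulRight_apply, smul_add, Function.comp_def, dn, P354YN.tr_jet]
  abel

theorem tp_one {d : ℝ} (h : d ≤ 3 / 4) : tp d = 1 :=
  Real.smoothTransition.one_of_one_le (by linarith)
theorem tp_zero {d : ℝ} (h : 1 ≤ d) : tp d = 0 := Real.smoothTransition.zero_of_nonpos (by linarith)
theorem cp_low {d : ℝ} (h : d ≤ 3 / 4) : cp d = 0 := by rw [cp, tp_one h]; ring
theorem cp_high {d : ℝ} (h : 7 / 4 ≤ d) : cp d = 0 := by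
  rw [cp, Real.smoothTransition.zero_of_nonpos (by linarith), mul_zero]
theorem cp_mid {d : ℝ} (h : d ≤ 5 / 4) : cp d = 1 - tp d := by
  rw [cp, Real.smoothTransition.one_of_one_le (by linarith), mul_one]
theorem cp_cont : Continuous cp := by
  have := Real.smoothTransition.continuous
  unfold cp tp
  fun_prop

theorem co_out (o : c.Ok) (h : 1 / 2 ≤ dd c p) : ca c p = 0 ∧ cl c p = 1 ∧ cn c p = 0 :=
  al_out (o.xi_out (by unfold dd at h; linarith))
theorem co_in (o : c.Ok) (h : dd c p ≤ -(1 / 2)) : ca c p = 0 ∧ cl c p = 0 ∧ cn c p = 1 :=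
  al_in (o.xi_in (by unfold dd at h; linarith))

theorem dd_cont : Continuous (dd c) := P354XA.rd_cont.sub continuous_const

theorem fy_const {a b e : ℝ} (h : ∀ᶠ x in 𝓝 p, ca c x = a ∧ cl c x = b ∧ cn c x = e) (x : A4) :
    Fy c p x = a • nab zJ x x.2.2 + b • nab lJ x x.2.2 + e • nab nJ x x.2.2 := by
  have e1 : ca c =ᶠ[𝓝 p] fun _ => a := h.mono fun _ h => h.1
  have e2 : cl c =ᶠ[𝓝 p] fun _ => b := h.mono fun _ h => h.2.1
  have e3 : cn c =ᶠ[𝓝 p] fun _ => e := h.mono fun _ h => h.2.2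
  simp [Fy, e1.fderiv_eq, e2.fderiv_eq, e3.fderiv_eq, e1.eq_of_nhds, e2.eq_of_nhds, e3.eq_of_nhds]

/-- The coefficient of the linear equation for X - Y. -/
def Lx (c : Pm) (g : Tw) (p v : R4) : R4 :=
  cp (dd c p) • (aL c.M g (c.X p) p v - nab lJ (c.M, jet 4 g p, c.X p) v) +
    cp (-dd c p) • (aN c.M g (c.X p) p v - nab nJ (c.M, jet 4 g p, c.X p) v) -
    Gm (tb g) p (c.X p) v

theorem lx_eq (hF : FLD) (o : c.Ok) (l : Lv g D) (hp : p ∈ D) (a : Ad c.M g (c.X p) p)
    (h : |dd c p| ≤ 5 / 4) : Fa c p (c.M, jet 4 g p, c.X p) - Fy c p (c.M, jet 4 g p, c.X p) -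
      Gm (tb g) p (c.X p) (c.X p - Yx c g p) = Lx c g p (c.X p - Yx c g p) := by
  have f := hF _ g D _ p l hp a
  obtain ⟨h1, h2⟩ := abs_le.1 h
  refine congrArg₂ _ ?_ rfl
  rcases le_total (3 / 4) (dd c p) with k | k
  · have e := (dd_cont.continuousAt.eventually_const_lt (show 1 / 2 < dd c p by linarith)).mono
      fun x hx => co_out o hx.le
    have y : Yx c g p = lN c.M g (c.X p) p := by simp [Yx, Yv, e.self_of_nhds, lN]
    have n := nab_lin l hp (lj_at a)
    rw [Fa, fy_const e, y, f.lin.1.map_sub, n.map_sub, f.al, nab_eq l hp (lj_at a) (lN _ _ _ _),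
      cp_low (show -dd c p ≤ _ by linarith), tp_one (show -dd c p ≤ _ by linarith), cp_mid h2]
    change _ + _ • aL _ _ _ _ _ + _ - _ = _ • (_ - (fderiv ℝ (fun x => lJ (_, jet 3 g x, _)) _ _ +
      Gm _ _ _ (lJ _)) - _) + _
    module
  rcases le_total (dd c p) (-(3 / 4)) with k' | k'
  · have e := (dd_cont.continuousAt.eventually_lt_const
      (show dd c p < -(1 / 2) by linarith)).mono fun x hx => co_in o hx.le
    have y : Yx c g p = nN c.M g (c.X p) p := by simp [Yx, Yv, e.self_of_nhds, nN]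
    have n := nab_lin l hp (nj_at a)
    rw [Fa, fy_const e, y, f.lin.2.map_sub, n.map_sub, f.an, nab_eq l hp (nj_at a) (nN _ _ _ _),
      cp_low k, tp_one k, cp_mid (show -dd c p ≤ _ by linarith)]
    change _ + _ + _ • aN _ _ _ _ _ - _ = _ + _ • (_ - (fderiv ℝ (fun x => nJ (_, jet 3 g x, _)) _ _ +
      Gm _ _ _ (nJ _)) - _)
    module
  · rw [Fa, cp_low k, tp_one k, cp_low (show -dd c p ≤ _ by linarith),
      tp_one (show -dd c p ≤ _ by linarith)]
    module

theorem lx_lin (hF : FLD) (l : Lv g D) (hp : p ∈ D) (a : Ad c.M g (c.X p) p) :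
    IsLinearMap ℝ (Lx c g p) :=
  have f := (hF _ g D _ p l hp a).lin
  have n := nab_lin l hp (lj_at a)
  have n' := nab_lin l hp (nj_at a)
  ⟨fun u v => by simp only [Lx, f.1.map_add, f.2.map_add, n.map_add, n'.map_add, Gm_add2]; module,
    fun t v => by
      simp only [Lx, f.1.map_smul, f.2.map_smul, n.map_smul, n'.map_smul, Gm_smul2]; module⟩

theorem lx_cont (l : Lv g D) (hp : p ∈ D) (hX : ContDiffAt ℝ ∞ c.X p) (a : Ad c.M g (c.X p) p)
    (v : R4) : ContinuousAt (Lx c g · v) p := by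
  have j : ContDiffAt ℝ ∞ (fun x => ((c.M, jet 4 g x, c.X x) : A4)) p :=
    contDiffAt_const.prodMk ((l.jet_at hp 4).prodMk hX)
  have k : ContDiffAt ℝ ∞ (fun _ : R4 => v) p := contDiffAt_const
  exact (((cp_cont.comp dd_cont).continuousAt.smul
    ((aj_at j a (lj_at a) (nj_at a) k).sub (nab_at j a (lj_at a) k)).continuousAt).add
    ((cp_cont.comp dd_cont.neg).continuousAt.smul
    ((aj_at j a (nj_at a) (lj_at a) k).sub (nab_at j a (nj_at a) k)).continuousAt)).sub
    ((rp_tb l.isOpen l.met).gm_cd hp hX k).continuousAt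

/-- The derivative of g(X, X). -/
theorem sq_fd (l : Lv g D) (hp : p ∈ D) (hX : ContDiffAt ℝ ∞ X p) (v : R4) :
    fderiv ℝ (fun x => tb g x (X x) (X x)) p v =
      2 * tb g p (fderiv ℝ X p v + Gm (tb g) p v (X p)) (X p) := by
  have r := rp_tb l.isOpen l.met
  rw [fd_ap ((r.at hp).clm_apply hX) hX, fd_ap (r.at hp) hX]
  simp only [add_apply, map_add, dh_eq r hp, r.symm p hp (X p)]
  ring

theorem fa_sq (hF : FLD) (l : Lv g D) (hp : p ∈ D) {κ : ℝ} (h : 1 ≤ |dd c p|)
    (a : (p, jet 4 g p, w) ∈ (nat c κ).U) : tb g p (Fa c p (c.M, jet 4 g p, w)) w = 0 := by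
  have r := rp_tb l.isOpen l.met
  have t : tp (dd c p) * tp (-dd c p) = 0 := by
    rcases le_abs'.1 h with k | k
    · rw [tp_zero (show 1 ≤ -dd c p by linarith), mul_zero]
    · rw [tp_zero k, zero_mul]
  rcases a with a | a
  · rcases lt_abs.1 a with k | k
    · simp [Fa, t, cp_high k.le, cp_low (show -dd c p ≤ _ by linarith)]
    · simp [Fa, t, cp_high k.le, cp_low (show dd c p ≤ _ by linarith)]
  · obtain ⟨e1, e2⟩ := (hF _ g D _ p l hp a).anti w w
    rw [r.eq p hp, r.eq p hp, r.symm p hp w] at e1 e2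
    have e3 : tb g p (AJ lJ nJ (c.M, jet 4 g p, w) w) w = 0 := by unfold aL at e1; linarith
    have e4 : tb g p (AJ nJ lJ (c.M, jet 4 g p, w) w) w = 0 := by unfold aN at e2; linarith
    simp [Fa, t, e3, e4]

theorem fir (hF : FLD) (hT : TAU) : FIR := by
  intro c o κ g D γ f s0 s1 hs l hf H
  have r := rp_tb l.isOpen l.met
  have hX : ∀ s ∈ Icc s0 s1, ContDiffAt ℝ ∞ c.X (γ s) := fun s h =>
    (hT c o.1).2.1.X_sm.contDiffAt ((isOpen_lt continuous_const P354XA.rd_cont).mem_nhds (H s h).2.1)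
  refine ⟨fun hd h0 => ?_, fun hd => ?_⟩
  · have a : ∀ s ∈ Icc s0 s1, Ad c.M g (c.X (γ s)) (γ s) := fun s h =>
      (H s h).2.2.2.1.resolve_left (by linarith [hd s h])
    have d : ∀ s ∈ Icc s0 s1, HasDerivAt (fun s => c.X (γ s) - Yx c g (γ s))
        (f s • Lx c g (γ s) (c.X (γ s) - Yx c g (γ s))) s := fun s h => by
      obtain ⟨h1, h2, h3, h4⟩ := H s h
      obtain ⟨y1, y2⟩ := yx_fd hF l h1 h2 (hX s h) (a s h)
      refine ((((hX s h).differentiableAt (by simp)).hasFDerivAt.comp_hasDerivAt s h3).sub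
        (y1.hasFDerivAt.comp_hasDerivAt s h3)).congr_deriv ?_
      rw [← lx_eq hF o.1 l h1 (a s h) (hd s h), ← y2, sub_eq_add_neg (c.X _), Gm_add2,
        ← neg_one_smul ℝ (Yx c g _), Gm_smul2, map_smul, map_smul]
      have := h4.acc l h1
      change _ = Fa c _ (c.M, jet 4 g _, _) at this
      rw [← this]
      module
    exact sub_eq_zero.1 (lin0 (L := fun s v => f s • Lx c g (γ s) v)
      (fun s h => (d s h).continuousAt.continuousWithinAt)
      (fun s h => (d s (Ico_subset_Icc_self h)).hasDerivWithinAt)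
      (fun s h => ⟨fun u v => by rw [(lx_lin hF l (H s h).1 (a s h)).map_add, smul_add], fun t v => by
        rw [(lx_lin hF l (H s h).1 (a s h)).map_smul, smul_comm]⟩)
      (fun v s h => (hf s h).smul ((lx_cont l (H s h).1 (hX s h) (a s h) v).comp
        (H s h).2.2.1.continuousAt).continuousWithinAt)
      (sub_eq_zero.2 h0) s1 (right_mem_Icc.2 hs))
  · have d : ∀ s ∈ Icc s0 s1, HasDerivAt (fun s => tb g (γ s) (c.X (γ s)) (c.X (γ s))) 0 s :=
      fun s h => by
      obtain ⟨h1, h2, h3, h4⟩ := H s h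
      refine ((((((r.at h1).clm_apply (hX s h)).clm_apply (hX s h)).differentiableAt
        (by simp)).hasFDerivAt).comp_hasDerivAt s h3).congr_deriv ?_
      rw [map_smul, sq_fd l h1 (hX s h), h4.acc l h1]
      exact smul_eq_zero_of_right _ (mul_eq_zero_of_right _ (fa_sq hF l h1 (hd s h) h4.1))
    rw [r.eq _ (H s1 (right_mem_Icc.2 hs)).1, r.eq _ (H s0 (left_mem_Icc.2 hs)).1]
    exact constant_of_has_deriv_right_zero (fun s h => (d s h).continuousAt.continuousWithinAt)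
      (fun s h => (d s (Ico_subset_Icc_self h)).hasDerivWithinAt) s1 (right_mem_Icc.2 hs)

end Vale.Agent.P354XV
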