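import Vale.Agent.P354XV.C4
import Vale.Agent.P354TR.Trans
import Vale.Agent.P354XA.Data
import Vale.Agent.P354DT.LocOf
import Vale.Agent.P354YC.Gus
import Vale.Agent.P354UR.Roll
import Vale.Agent.P354LC.Main

/- The continuation statement CONT from the two analytic rows that are still open. -/

namespace Vale.Agent.P354XV

theorem cont (hL : P354LC.LOC) (hU : P354YC.UNQ) : CONT :=
  cont_of (P354DT.loc_of hL) (P354YC.gus_of P354UR.roll hU) P354XA.data P354TR.trans

theorem cont1 (hU : P354YC.UNQ) : CONT := cont P354LC.loc hU

end Vale.Agent.P354XV
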